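import Vale.Agent.P354FN.Lid

/-!
The estimate in finite time for the two families of a transverse solution.
-/

namespace Vale.Agent.P354FN

open Vale.Agent.P354XI Vale.Agent.P354XI.Ibp Vale.Agent.P354XT Vale.Agent.P354XF Finset

section
variable {A : Type*} [CommRing A] [Algebra ℂ A] {ι : Type} {A' : Type} [CommRing A'] [Algebra ℂ A']
  {b : Brg A ι} {Φ : Fld A'} {π : A →ₐ[ℂ] A'} {M a C d : ℝ} {x : Φ.B.Pt} {t L m : ℕ}

theorem lo_eq : lo Φ (b.fp π) m = b.lv2 Φ π (m + 1) := Fintype.sum_bool _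

variable (h : Φ.Is) (H : b.Hom Φ π M a)
include h H

theorem out_j1 (o : b.Out t L C d ((evA h.B x).comp π)) (hL : 2 ≤ L) (c e : Fin 5) :
    J1 Φ.B Φ.X x (π (b.del c e)) (C * d) :=
  ⟨o.del c e [] (by simp; omega), fun i => by
    rw [← H.X]; exact o.del c e [i] (by simpa using hL)⟩

theorem out_hn (o : b.Out (m + 1) L C d ((evA h.B x).comp π)) (hL : 1 ≤ L) (d1 : |d| ≤ 1) :
    Hn Φ M a ((C * d) ^ 2) (4 * C ^ 2) (fun c e => π (b.del c e)) sp (b.fp π) m x := by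
  have e := Real.sq_sqrt (Brg.lv2_nn (b := b) (π := π) h x (m + 1))
  have n := Brg.nb_lv2 (b := b) (π := π) h x (m + 1)
  refine ⟨fun σ i J hJ => ?_, fun σ J hJ => ?_⟩ <;> rw [lo_eq, ← e]
  · rw [Brg.fp, Brg.fp, ← H.X, ← map_sub, ← mul_pow]
    exact pow_le_pow_left₀ (norm_nonneg _) (o.hon σ [i] J hL (by simp; omega) _ n) 2
  · rw [Brg.fp, ← H.P, ← H.Q, ← map_add, ← spn_eq]
    refine (pow_le_pow_left₀ (norm_nonneg _) (o.eqA σ J (by omega) _ n _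
      ((n σ).mono (by omega))) 2).trans ?_
    generalize √(Φ.B.val x (b.lv2 Φ π (m + 1))) = y
    have : (1 + d) ^ 2 ≤ 4 := by nlinarith [abs_le.1 d1]
    nlinarith [mul_le_mul_of_nonneg_left this (sq_nonneg (C * y))]

end

/-- The estimate for the two families; the top level is m + 1. -/
theorem famFin {k c : ℝ} (k1 : 10 ≤ k) (c0 : 0 < c) (c1 : c ≤ 1) (m : ℕ) (C : ℝ) :
    ∃ δ K0 C' : ℝ, 0 < δ ∧ 0 < K0 ∧ 0 < C' ∧
      ∀ (A : Type) [CommRing A] [Algebra ℂ A] (ι A' : Type) [CommRing A'] [Algebra ℂ A']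
        (b : Brg A ι) (Φ : Fld A') (π : A →ₐ[ℂ] A') (M a : ℝ) (h : Φ.Is), b.Hom Φ π M a →
      |a| ≤ k → |M| ≤ k → (∀ c e, Φ.B.Re (π (b.del c e))) →
      (∀ σ J, Φ.P (sp σ) (sp σ) M a (b.fp π σ J) = (kw Φ M a).Op (1 - sp σ) (2 * (1 - 2 * sp σ))
        (-(4 * sp σ)) (b.fp π σ J) + rl A' (sp σ ^ 2 - sp σ) * b.fp π σ J) →
      ∀ κ ε, K0 ≤ κ → 10 ^ 6 * k ^ 12 * ε ≤ c ^ 4 → ∀ Om Bd : A', Φ.B.Wt Om → Φ.B.Wt Bd →
      (∀ x, At (kw Φ M a) Φ.B k c κ ε Om Bd (fun c e => π (b.del c e)) x ∨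
        Off (kw Φ M a) Φ.B Om x) →
      (∀ x, Φ.B.val x Om ≠ 0 ∨ Φ.B.val x Bd ≠ 0 → ∃ L d, 1 ≤ L ∧ |d| ≤ δ ∧
        b.Out (m + 1) L C d ((evA h.B x).comp π)) →
      κ * Φ.B.J (Om * b.lv2 Φ π (m + 1)) ≤ C' * Φ.B.J (Bd * b.lv2 Φ π (m + 1)) := by
  obtain ⟨n, hn⟩ : ∃ n : ℝ, n = 2 * (words (m + 1)).card + 1 := ⟨_, rfl⟩
  have n1 : 1 ≤ n := by rw [hn]; linarith [(words (m + 1)).card.cast_nonneg (α := ℝ)]
  obtain ⟨K0, C', p, q, E⟩ := famA (k := k) (by linarith) c0 c1 n (4 * C ^ 2) n1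
  have p0 : 0 < 4 * n * (C ^ 2 + 1) := by positivity
  refine ⟨(4 * n * (C ^ 2 + 1))⁻¹, K0, C', inv_pos.2 p0, p, q, ?_⟩
  intro A _ _ ι A' _ _ b Φ π M a h H ha hM rd hP κ ε hκ hε Om Bd hO hB At o
  refine lo_eq (b := b) (Φ := Φ) ▸ E A' Φ 2 M a h ha hM (by linarith) κ ε hκ hε Om Bd _ hO hB rd At
    Bool sp (b.fp π) m (4 * n)⁻¹ (by simp [hn]) (mul_inv_cancel₀ (by positivity)).le
    (fun σ => by cases σ <;> simp [sp]) hP fun x e => ?_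
  obtain ⟨L, d, hL, hd, o⟩ := o x e
  have d1 : |d| ≤ 1 := hd.trans (inv_le_one_of_one_le₀ (by nlinarith [sq_nonneg C]))
  have k := out_hn h H o hL d1
  refine ⟨fun i j J e => (k.hon i j J e).trans (mul_le_mul_of_nonneg_right ?_
    (by rw [val_lo h]; positivity)), k.eqA⟩
  rw [← one_div, le_div_iff₀ p0] at hd
  rw [← one_div, le_div_iff₀ (by positivity), mul_pow, ← sq_abs d]
  have := mul_le_mul_of_nonneg_left (mul_le_of_le_one_left (abs_nonneg d) d1)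
    (show 0 ≤ 4 * n * C ^ 2 by positivity)
  nlinarith [abs_nonneg d]

end Vale.Agent.P354FN
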