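import Vale.Agent.P354XI.Pert

/-!
The energy estimate for a second order operator with real coefficients, with the exact current.
-/

namespace Vale.Agent.P354FN

open Vale.Agent.P354XG (Der D_mul D_add D_sub D_neg D_alg D_num D_one D_zero)
open Vale.Agent.P354XI Vale.Agent.P354XI.Ibp Vale.Agent.P354YF Finset

section real
variable {ι : Type} [Fintype ι] {g g' : ι → ι → ℝ} {y ξ η τ p : ι → ℝ}

/-- The bilinear form, the pairing, the current. -/
def qf (g : ι → ι → ℝ) (ξ p : ι → ℝ) : ℝ := ∑ a, ∑ b, g a b * ξ a * p b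
def pr (y ξ : ι → ℝ) : ℝ := ∑ c, y c * ξ c
def cur (g : ι → ι → ℝ) (y ξ p : ι → ℝ) : ℝ := pr y ξ * qf g p p - (qf g ξ p + qf g p ξ) * pr y p

theorem pr_lin (s t : ℝ) : pr y (s • ξ + t • η) = s * pr y ξ + t * pr y η := by
  simp only [pr, Pi.add_apply, Pi.smul_apply, smul_eq_mul, mul_sum, ← sum_add_distrib]
  exact sum_congr rfl fun _ _ => by ring

theorem qf_l (s t : ℝ) : qf g (s • ξ + t • η) p = s * qf g ξ p + t * qf g η p := by
  simp only [qf, Pi.add_apply, Pi.smul_apply, smul_eq_mul, mul_sum, ← sum_add_distrib]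
  exact sum_congr rfl fun _ _ => sum_congr rfl fun _ _ => by ring

theorem qf_r (s t : ℝ) : qf g p (s • ξ + t • η) = s * qf g p ξ + t * qf g p η := by
  simp only [qf, Pi.add_apply, Pi.smul_apply, smul_eq_mul, mul_sum, ← sum_add_distrib]
  exact sum_congr rfl fun _ _ => sum_congr rfl fun _ _ => by ring

theorem qf_add : qf (g + g') ξ p = qf g ξ p + qf g' ξ p := by
  simp only [qf, Pi.add_apply, add_mul, sum_add_distrib]

theorem cur_lin (s t : ℝ) : cur g y (s • ξ + t • η) p = s * cur g y ξ p + t * cur g y η p := by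
  simp only [cur, pr_lin, qf_l (p := p), qf_r (p := p)]; ring

theorem cur_add : cur (g + g') y ξ p = cur g y ξ p + cur g' y ξ p := by
  simp only [cur, qf_add]; ring

theorem cur_eq : cur g y ξ p = ∑ c, ∑ a, ∑ b, (ξ c * (y c * g a b) * (p a * p b) -
    ξ a * (y c * g a b) * (p b * p c) - ξ b * (y c * g a b) * (p a * p c)) := by
  rw [cur, pr, pr, sum_mul, mul_sum, ← sum_sub_distrib]
  refine sum_congr rfl fun c _ => ?_
  simp only [qf, ← sum_add_distrib, sum_mul, mul_sum, ← sum_sub_distrib]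
  exact sum_congr rfl fun a _ => sum_congr rfl fun b _ => by ring

/-- A causal covector on the side of tau is future directed. -/
theorem fut (pd : ∀ p, pr y p = 0 → 0 ≤ qf g p p) (h : qf g η η ≤ 0) (t : qf g τ τ < 0)
    (t0 : 0 < pr y τ) (e : qf g η τ + qf g τ η ≤ 0) : 0 ≤ pr y η := by
  by_contra c
  have c := neg_pos.2 (not_le.1 c)
  have := pd (pr y τ • η + (-pr y η) • τ) (by rw [pr_lin]; ring)
  rw [qf_l, qf_r, qf_r] at this
  nlinarith [mul_nonneg (mul_pos t0 t0).le (neg_nonneg.2 h), mul_pos (mul_pos c c) (neg_pos.2 t),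
    mul_nonneg (mul_pos t0 c).le (neg_nonneg.2 e)]

/-- The dominant energy condition. -/
theorem dec {c : ℝ} (c0 : 0 < c) (pd : ∀ p, pr y p = 0 → c * ∑ a, p a ^ 2 ≤ qf g p p)
    (h : qf g η η ≤ 0) (f : 0 ≤ pr y η) : 0 ≤ cur g y η p := by
  rcases f.eq_or_lt with e | e
  · have z : ∀ a, η a = 0 := fun a => by
      have := single_le_sum (f := fun a => η a ^ 2) (fun _ _ => sq_nonneg _) (mem_univ a)
      have := pd η e.symm
      exact pow_eq_zero_iff two_ne_zero |>.1 (le_antisymm (by nlinarith) (sq_nonneg _))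
    simp [cur, pr, qf, z]
  · have := (mul_nonneg c0.le (sum_nonneg fun _ _ => sq_nonneg _)).trans
      (pd (pr y η • p + (-pr y p) • η) (by rw [pr_lin]; ring))
    rw [qf_l, qf_r, qf_r] at this
    refine le_of_mul_le_mul_left ?_ e
    rw [cur]
    nlinarith [mul_nonneg (sq_nonneg (pr y p)) (neg_nonneg.2 h)]

theorem abs_pr {s : ℝ} (hy : ∀ c, |y c| ≤ s) : |pr y ξ| ≤ s * ∑ c, |ξ c| := by
  rw [mul_sum]
  exact (abs_sum_le_sum_abs _ _).trans (sum_le_sum fun c _ =>
    (abs_mul _ _).le.trans (mul_le_mul_of_nonneg_right (hy c) (abs_nonneg _)))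

theorem abs_qf {s : ℝ} (hg : ∀ a b, |g a b| ≤ s) :
    |qf g ξ p| ≤ s * ((∑ c, |ξ c|) * ∑ c, |p c|) := by
  rw [sum_mul_sum, mul_sum]
  refine (abs_sum_le_sum_abs _ _).trans (sum_le_sum fun a _ => ?_)
  rw [mul_sum]
  refine (abs_sum_le_sum_abs _ _).trans (sum_le_sum fun b _ => ?_)
  rw [mul_assoc, abs_mul, abs_mul]
  exact mul_le_mul_of_nonneg_right (hg a b) (by positivity)

theorem sq_abs_sum (p : ι → ℝ) :
    (∑ c, |p c|) * ∑ c, |p c| ≤ (Fintype.card ι : ℝ) * ∑ c, p c ^ 2 := by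
  simpa only [← pow_two, sq_abs, card_univ] using
    sq_sum_le_card_mul_sum_sq (s := univ) (f := fun c => |p c|)

theorem abs_cur {s t b : ℝ} (s0 : 0 ≤ s) (t0 : 0 ≤ t) (b0 : 0 ≤ b) (hg : ∀ a b, |g a b| ≤ s)
    (hy : ∀ c, |y c| ≤ t) (hx : ∀ c, |ξ c| ≤ b) :
    |cur g y ξ p| ≤ 3 * (Fintype.card ι : ℝ) ^ 2 * (s * t * b) * ∑ c, p c ^ 2 := by
  have x1 : ∑ c, |ξ c| ≤ (Fintype.card ι : ℝ) * b := by
    simpa using sum_le_sum (s := univ) fun c _ => hx c
  have n : ∀ q : ι → ℝ, 0 ≤ ∑ c, |q c| := fun q => sum_nonneg fun _ _ => abs_nonneg _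
  have a1 := mul_le_mul (abs_pr (ξ := ξ) hy) (abs_qf (ξ := p) (p := p) hg) (abs_nonneg _)
    (mul_nonneg t0 (n _))
  have a2 := mul_le_mul ((abs_add_le _ _).trans (add_le_add (abs_qf (ξ := ξ) (p := p) hg)
    (abs_qf (ξ := p) (p := ξ) hg))) (abs_pr (ξ := p) hy) (abs_nonneg _)
    (add_nonneg (mul_nonneg s0 (mul_nonneg (n _) (n _))) (mul_nonneg s0 (mul_nonneg (n _) (n _))))
  have a3 := mul_le_mul_of_nonneg_left (mul_le_mul x1 (sq_abs_sum p) (mul_nonneg (n _) (n _))
    (by positivity)) (mul_nonneg s0 t0)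
  rw [← abs_mul] at a1 a2
  refine (abs_sub _ _).trans ?_
  linarith

end real

variable {A : Type} [CommRing A] [Algebra ℂ A] {ι : Type} [Fintype ι] {B : Ibp A} {X : ι → Der A}
  {Om V W : A} {u : A}

/-- The density of the current. -/
def dens (B : Ibp A) (X : ι → Der A) (Om v u : A) (a b c : ι) : A :=
  X c Om * v * (X a u * B.c (X b u)) - X a Om * v * (X b u * B.c (X c u)) -
    X b Om * v * (X a u * B.c (X c u))

theorem three' (h : Let B X) (hO : B.Wt Om) {v : A} (rv : B.Re v) (hW : W ∈ B.K)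
    (e0 : ∀ x, B.md x (Om * v) ≤ B.val x W) (e1 : ∀ x d, B.md x (Om * X d v) ≤ B.val x W)
    (a b c : ι) (u : A) : 2 * B.bil (Om * v) (X a (X b u)) (X c u) ≤
      B.J (dens B X Om v u a b c) + 6 * nj B X W 1 u := by
  have hw := B.K.mul_mem_right v hO.K
  have t := h.is.three (h.sk a) (h.sk b) (h.sk c) hw (hO.re.mul rv) u
  have k := fun d => B.K.mul_mem_right (X d v) hO.K
  have p1 := bil_nj (X := X) h.is (k c) hW (e1 · c) (md_X · a u) (md_X · b u)
  have p2 := bil_nj (X := X) h.is (k a) hW (e1 · a) (md_X · b u) (md_X · c u)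
  have p3 := bil_nj (X := X) h.is (k b) hW (e1 · b) (md_X · a u) (md_X · c u)
  have p4 := bil_nj (X := X) h.is hw hW e0 (md_X · b u) (h.md_cm · a c u)
  have p5 := bil_nj (X := X) h.is hw hW e0 (md_X · a u) (h.md_cm · b c u)
  have p6 := bil_nj (X := X) h.is hw hW e0 (h.md_cm · a b u) (md_X · c u)
  simp only [D_mul _ Om, bil_add_w, mul_comm v] at t
  rw [dens, J_sub, J_sub, ← bil, ← bil, ← bil]
  rw [abs_le] at *
  linarith [p1.2, p2.1, p3.1, p4.1, p5.1, p6.2]

theorem val_dens (h : Let B X) (rO : B.Re Om) {G : ι → ι → A} (rG : ∀ a b, B.Re (G a b))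
    {y : ι → A} (ry : ∀ c, B.Re (y c)) (x : B.Pt) :
    B.val x (∑ c, ∑ a, ∑ b, dens B X Om (y c * G a b) u a b c) =
      cur (fun a b => B.val x (G a b)) (fun c => B.val x (y c)) (fun a => B.val x (X a Om))
        (fun a => B.val x (X a u)) +
      cur (fun a b => B.val x (G a b)) (fun c => B.val x (y c)) (fun a => B.val x (X a Om))
        (fun a => B.im x (X a u)) := by
  have r := fun d => (h.sk d).isRe rO
  simp only [val_sum, dens, val_sub, h.is.val_bil ((r _).mul ((ry _).mul (rG _ _))), ip, cur_eq,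
    ← sum_add_distrib]
  simp only [h.is.val_mul (r _), h.is.val_mul (ry _)]
  exact sum_congr rfl fun _ _ => sum_congr rfl fun _ _ => sum_congr rfl fun _ _ => by ring

/-- The energy estimate. -/
theorem energy (h : Let B X) {G : ι → ι → A} (rG : ∀ a b, B.Re (G a b)) {y : ι → A}
    (ry : ∀ c, B.Re (y c)) (hO : B.Wt Om) (hV : V ∈ B.K) (rV : B.Re V) {k : ℝ}
    (bd : ∀ x, B.val x Om ≠ 0 → ∀ c, B.md x (y c) ≤ k ∧ B.md x (X c (y c)) ≤ k ∧
      ∀ a b, B.md x (y c * G a b) ≤ k ∧ ∀ d, B.md x (X d (y c * G a b)) ≤ k)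
    (H : ∀ x p, B.val x V * ∑ a, p a ^ 2 ≤ -cur (fun a b => B.val x (G a b))
      (fun c => B.val x (y c)) (fun a => B.val x (X a Om)) p)
    (H0 : ∀ x, B.val x V ≤ -pr (fun c => B.val x (y c)) fun a => B.val x (X a Om)) (u : A) :
    nj B X V 1 u ≤ B.nsq Om (Pe X G u) +
      (6 * (Fintype.card ι : ℝ) ^ 3 * k + 3 * Fintype.card ι * k + Fintype.card ι * k ^ 2) *
        nj B X Om 1 u := by
  have hW := B.K.mul_mem_left (rl A k) hO.K
  have w : ∀ {x f}, (B.val x Om ≠ 0 → B.md x f ≤ k) → B.md x (Om * f) ≤ B.val x (rl A k * Om) :=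
    fun {x f} e => by
      rw [md_mul, h.is.md_re hO.re, abs_of_nonneg (hO.pos x), h.is.val_mul (h.is.re_rl _),
        h.is.val_rl, mul_comm k]
      by_cases c : B.val x Om = 0
      · rw [c, zero_mul, zero_mul]
      · exact mul_le_mul_of_nonneg_left (e c) (hO.pos x)
  have kX := fun d => (h.sk d).dv.K_D _ hO.K
  have rX := fun d => (h.sk d).isRe hO.re
  have e : B.bil Om (Pe X G u) (∑ c, y c * X c u) =
      ∑ c, ∑ a, ∑ b, B.bil (Om * (y c * G a b)) (X a (X b u)) (X c u) := by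
    rw [bil_sum_r]
    refine sum_congr rfl fun c _ => ?_
    rw [bil_re_r (ry c), Pe, bil_sum_l]
    refine sum_congr rfl fun a _ => ?_
    rw [bil_sum_l]
    exact sum_congr rfl fun b _ => by rw [bil_mul_l, mul_assoc]
  have a1 := sum_le_sum fun c (_ : c ∈ univ) => sum_le_sum fun a (_ : a ∈ univ) =>
    sum_le_sum fun b (_ : b ∈ univ) => three' h hO ((ry c).mul (rG a b)) hW
      (fun x => w fun o => ((bd x o c).2.2 a b).1) (fun x d => w fun o => ((bd x o c).2.2 a b).2 d)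
      a b c u
  simp only [← mul_sum, ← e, sum_add_distrib, sum_const, card_univ, nsmul_eq_mul, nj_rl_w,
    ← J_sum] at a1
  have a2 : ∑ a, B.nsq V (X a u) ≤ -B.J (∑ c, ∑ a, ∑ b, dens B X Om (y c * G a b) u a b c) := by
    have m := fun d f g => B.K.mul_mem_right g (B.K.mul_mem_right f (kX d))
    simp only [nsq, bil]
    rw [← J_sum, ← J_neg]
    refine h.is.J_le (B.K.sum_mem fun _ _ => B.K.mul_mem_right _ hV) (B.K.neg_mem (B.K.sum_mem
      fun _ _ => B.K.sum_mem fun _ _ => B.K.sum_mem fun _ _ => B.K.sub_mem (B.K.sub_mem (m _ _ _)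
        (m _ _ _)) (m _ _ _))) fun x => ?_
    rw [val_neg, val_dens h hO.re rG ry, val_sum]
    simp only [h.is.val_nsq rV, md_sq, ← mul_sum, sum_add_distrib]
    linarith [H x fun a => B.val x (X a u), H x fun a => B.im x (X a u)]
  have a3 := h.is.nsq_nonneg hO (Pe X G u + ∑ c, y c * X c u)
  rw [nsq, bil_add_l, bil_add_r, bil_add_r, h.is.bil_comm hO.K hO.re (∑ c, y c * X c u),
    ← nsq, ← nsq] at a3
  have a4 : B.nsq Om (∑ c, y c * X c u) ≤ Fintype.card ι * k ^ 2 * nj B X Om 1 u := by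
    rw [← nj_rl_w, ← nj_zero (X := X)]
    refine nj_le h.is hO.K (B.K.mul_mem_left _ hO.K) fun x => ?_
    rw [h.is.val_mul (h.is.re_rl _), h.is.val_rl, mul_comm _ (B.val x Om), mul_assoc, qq]
    by_cases c : B.val x Om = 0
    · rw [c, zero_mul, zero_mul]
    refine mul_le_mul_of_nonneg_left ?_ (hO.pos x)
    have s := (md_sum x _ _).trans (sum_le_sum fun d (_ : d ∈ univ) => (md_mul x _ _).le.trans
      (mul_le_mul_of_nonneg_right (bd x c d).1 (md_nonneg x (X d u))))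
    have t := (sq_sum_le_card_mul_sum_sq (s := univ) (f := fun d => B.md x (X d u))).trans
      (mul_le_mul_of_nonneg_left (sum_der_le (X := X) 0 u) (Nat.cast_nonneg _))
    rw [← mul_sum] at s
    rw [card_univ] at t
    linarith [pow_le_pow_left₀ (md_nonneg _ _) s 2, mul_le_mul_of_nonneg_left t (sq_nonneg k)]
  have a5 : B.nsq V u ≤ ∑ c, B.nsq (-(y c * X c Om)) u := by
    rw [nsq, ← nsq, show ∑ c, B.nsq (-(y c * X c Om)) u = B.nsq (∑ c, -(y c * X c Om)) u from
      (bil_sum_w _ _ _ _).symm]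
    refine h.is.nsq_mono hV rV (B.K.sum_mem fun c _ => B.K.neg_mem (B.K.mul_mem_left _ (kX c)))
      (Re.sum _ fun c _ => ((ry c).mul (rX c)).neg) _ _ fun x =>
        mul_le_mul_of_nonneg_right ((H0 x).trans (le_of_eq ?_)) (sq_nonneg _)
    simp only [pr, val_sum, val_neg, h.is.val_mul (ry _), sum_neg_distrib]
  have a6 := sum_le_sum fun c (_ : c ∈ univ) => show B.nsq (-(y c * X c Om)) u ≤
      3 * (k * nj B X Om 1 u) by
    have e := (h.sk c).self h.is (B.K.mul_mem_right (y c) hO.K) (hO.re.mul (ry c)) u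
    have f := bil_nj (X := X) h.is (B.K.mul_mem_right (y c) hO.K) hW
      (fun x => w fun o => (bd x o c).1) (md_X · c u) fun x => md_le_qq 1 u
    have g := bil_nj (X := X) h.is (B.K.mul_mem_right (X c (y c)) hO.K) hW
      (fun x => w fun o => (bd x o c).2.1) (fun x => md_le_qq 1 u) fun x => md_le_qq 1 u
    rw [D_mul, nsq_add_w, nsq] at e
    rw [nj_rl_w] at f g
    rw [nsq, bil_neg_w, ← nsq]
    linarith [(abs_le.1 f).2, (abs_le.1 g).2]
  simp only [sum_const, card_univ, nsmul_eq_mul] at a6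
  rw [nj_succ]
  simp only [nj_zero]
  linarith

end Vale.Agent.P354FN
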