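import Vale.Agent.P354XI.Vc

/-!
The cone of the future covectors of the Kerr wave frame, with a margin. A covector is given by its
values on T, R and the three rotations.
-/

namespace Vale.Agent.P354FN

open Vale.Agent.P354XI

/-- The value on the outgoing null field. -/
def cP (M a r : ℝ) (ξ : Fin 5 → ℝ) : ℝ :=
  (r ^ 2 - 2 * M * r + a ^ 2) * ξ 1 + 2 * ((r ^ 2 + a ^ 2) * ξ 0 + a * ξ 4)

/-- The values on the angular fields. -/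
def cm0 (a : ℝ) (w : Fin 3 → ℝ) (ξ : Fin 5 → ℝ) : ℝ := ξ 2 - a * (w 2 * w 0) * ξ 0
def cm1 (a : ℝ) (w : Fin 3 → ℝ) (ξ : Fin 5 → ℝ) : ℝ := ξ 3 - a * (w 2 * w 1) * ξ 0
def cm2 (a : ℝ) (w : Fin 3 → ℝ) (ξ : Fin 5 → ℝ) : ℝ := ξ 4 + a * (1 - w 2 * w 2) * ξ 0

/-- The cone with the margin c. -/
structure Cone (c M a r : ℝ) (w : Fin 3 → ℝ) (ξ : Fin 5 → ℝ) : Prop where
  le : ∀ i, c * |ξ i| ≤ -ξ 1
  lo : c * -ξ 1 ≤ cP M a r ξ
  an : cm0 a w ξ ^ 2 + cm1 a w ξ ^ 2 + cm2 a w ξ ^ 2 ≤ (1 - c) * (-ξ 1 * cP M a r ξ)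

variable {c c' M a r : ℝ} {w : Fin 3 → ℝ} {ξ η : Fin 5 → ℝ}

theorem Cone.zero : Cone c M a r w 0 :=
  ⟨fun _ => by simp, by simp [cP], by simp [cP, cm0, cm1, cm2]⟩

theorem Cone.q0 (h : Cone c M a r w ξ) (c0 : 0 < c) : 0 ≤ -ξ 1 :=
  (mul_nonneg c0.le (abs_nonneg _)).trans (h.le 0)

theorem Cone.p0 (h : Cone c M a r w ξ) (c0 : 0 < c) : 0 ≤ cP M a r ξ :=
  (mul_nonneg c0.le (h.q0 c0)).trans h.lo

theorem Cone.mono (h : Cone c M a r w ξ) (c0 : 0 < c') (e : c' ≤ c) : Cone c' M a r w ξ :=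
  have q := h.q0 (c0.trans_le e)
  have p := h.p0 (c0.trans_le e)
  ⟨fun i => (mul_le_mul_of_nonneg_right e (abs_nonneg _)).trans (h.le i),
    (mul_le_mul_of_nonneg_right e q).trans h.lo,
    h.an.trans (mul_le_mul_of_nonneg_right (by linarith) (mul_nonneg q p))⟩

theorem Cone.smul (h : Cone c M a r w ξ) {t : ℝ} (t0 : 0 ≤ t) : Cone c M a r w (t • ξ) := by
  refine ⟨fun i => ?_, ?_, ?_⟩
  · have := mul_le_mul_of_nonneg_left (h.le i) t0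
    simp only [Pi.smul_apply, smul_eq_mul, abs_mul, abs_of_nonneg t0]
    linarith
  · have := mul_le_mul_of_nonneg_left h.lo t0
    simp only [cP, Pi.smul_apply, smul_eq_mul] at this ⊢
    linarith
  · have := mul_le_mul_of_nonneg_left h.an (sq_nonneg t)
    simp only [cP, cm0, cm1, cm2, Pi.smul_apply, smul_eq_mul] at this ⊢
    linarith

theorem cs3 (m0 m1 m2 n0 n1 n2 : ℝ) :
    (m0 * n0 + m1 * n1 + m2 * n2) ^ 2 ≤ (m0 ^ 2 + m1 ^ 2 + m2 ^ 2) * (n0 ^ 2 + n1 ^ 2 + n2 ^ 2) := by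
  nlinarith [sq_nonneg (m0 * n1 - m1 * n0), sq_nonneg (m0 * n2 - m2 * n0),
    sq_nonneg (m1 * n2 - m2 * n1)]

theorem Cone.add (h : Cone c M a r w ξ) (h' : Cone c M a r w η) (c0 : 0 < c) (c1 : c ≤ 1) :
    Cone c M a r w (ξ + η) := by
  have e : cP M a r (ξ + η) = cP M a r ξ + cP M a r η := by simp only [cP, Pi.add_apply]; ring
  have e0 : cm0 a w (ξ + η) = cm0 a w ξ + cm0 a w η := by simp only [cm0, Pi.add_apply]; ring
  have e1 : cm1 a w (ξ + η) = cm1 a w ξ + cm1 a w η := by simp only [cm1, Pi.add_apply]; ring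
  have e2 : cm2 a w (ξ + η) = cm2 a w ξ + cm2 a w η := by simp only [cm2, Pi.add_apply]; ring
  refine ⟨fun i => ?_, ?_, ?_⟩
  · have := mul_le_mul_of_nonneg_left (abs_add_le (ξ i) (η i)) c0.le
    simp only [Pi.add_apply]
    linarith [h.le i, h'.le i]
  · rw [e, Pi.add_apply]
    linarith [h.lo, h'.lo]
  · have a1 := h.an
    have a2 := h'.an
    have q1 := h.q0 c0
    have q2 := h'.q0 c0
    have p1 := h.p0 c0
    have p2 := h'.p0 c0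
    rw [e, e0, e1, e2, Pi.add_apply, neg_add]
    generalize cP M a r ξ = P at *
    generalize cP M a r η = P' at *
    generalize -ξ 1 = q at *
    generalize -η 1 = q' at *
    have k0 : 0 ≤ 1 - c := by linarith
    have := (cs3 (cm0 a w ξ) (cm1 a w ξ) (cm2 a w ξ) (cm0 a w η) (cm1 a w η) (cm2 a w η)).trans
      (mul_le_mul a1 a2 (by positivity) (by positivity))
    have b := (abs_le_of_sq_le_sq' (b := (1 - c) * (q * P' + q' * P) / 2) (this.trans (by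
      nlinarith [mul_nonneg (sq_nonneg (1 - c)) (sq_nonneg (q * P' - q' * P))])) (by positivity)).2
    linarith

/-- The current of a covector in the cone is positive. -/
theorem Cone.gd (h : Cone c M a r w ξ) (c0 : 0 < c) (c1 : c ≤ 1) {c1' c2 μ : ℝ} (μ0 : 0 ≤ μ)
    (h1 : μ ≤ c1') (h2 : μ ≤ c2) (R l A0 A1 A2 : ℝ) :
    c ^ 2 / 2 * μ * -ξ 1 * (R ^ 2 + l ^ 2 + (A0 ^ 2 + A1 ^ 2 + A2 ^ 2)) ≤
      gd c1' c2 (cP M a r ξ) (-ξ 1) (-cm0 a w ξ) (-cm1 a w ξ) (-cm2 a w ξ) R l A0 A1 A2 := by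
  have a1 := h.an
  have q1 := h.q0 c0
  have p1 := h.p0 c0
  have l1 := h.lo
  have cs := cs3 (cm0 a w ξ) (cm1 a w ξ) (cm2 a w ξ) A0 A1 A2
  simp only [P354XI.gd]
  generalize cP M a r ξ = P at *
  generalize -ξ 1 = q at *
  have z0 : 0 ≤ A0 ^ 2 + A1 ^ 2 + A2 ^ 2 := by positivity
  generalize A0 ^ 2 + A1 ^ 2 + A2 ^ 2 = Z at *
  have e : -cm0 a w ξ * A0 + -cm1 a w ξ * A1 + -cm2 a w ξ * A2 =
      -(cm0 a w ξ * A0 + cm1 a w ξ * A1 + cm2 a w ξ * A2) := by ring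
  rw [e]
  generalize cm0 a w ξ * A0 + cm1 a w ξ * A1 + cm2 a w ξ * A2 = s at *
  have s2 : s ^ 2 ≤ (1 - c / 2) ^ 2 * (q * P) * Z :=
    cs.trans (mul_le_mul_of_nonneg_right (a1.trans (mul_le_mul_of_nonneg_right (by nlinarith)
      (by positivity))) z0)
  have k0 : 0 ≤ 1 - c / 2 := by linarith
  have k : ∀ P q y : ℝ, 0 ≤ P → 0 ≤ q → s ^ 2 ≤ (1 - c / 2) ^ 2 * (q * P) * Z →
      |2 * s * y| ≤ (1 - c / 2) * (P * y ^ 2 + q * Z) := fun P q y p1 q1 s2 =>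
    abs_le.2 (abs_le_of_sq_le_sq' (by
      nlinarith [mul_le_mul_of_nonneg_right s2 (sq_nonneg y),
        mul_nonneg (sq_nonneg (1 - c / 2)) (sq_nonneg (P * y ^ 2 - q * Z))]) (by positivity))
  have k1 := (abs_le.1 (k P q R p1 q1 s2)).1
  have k2 := (abs_le.1 (k q P l q1 p1 (by rwa [mul_comm P]))).2
  have u1 : c / 2 * (c * q * R ^ 2 + c * q * Z) ≤ P * R ^ 2 + q * Z - 2 * -s * R := by
    nlinarith [mul_le_mul_of_nonneg_right l1 (sq_nonneg R), mul_nonneg q1 z0,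
      mul_nonneg (mul_nonneg c0.le (sub_nonneg.2 c1)) (mul_nonneg q1 z0)]
  have u2 : c / 2 * (c * q * l ^ 2) ≤ q * l ^ 2 + P * Z + 2 * -s * l := by
    nlinarith [mul_nonneg p1 z0, mul_nonneg q1 (sq_nonneg l), mul_nonneg c0.le (mul_nonneg p1 z0),
      mul_nonneg (mul_nonneg c0.le (sub_nonneg.2 c1)) (mul_nonneg q1 (sq_nonneg l))]
  have v1 := mul_le_mul h1 u1 (by positivity) (μ0.trans h1)
  have v2 := mul_le_mul h2 u2 (by positivity) (μ0.trans h2)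
  linarith

/-- The current of a bounded covector is bounded. -/
theorem gd_bd {c1 c2 P q m0 m1 m2 β : ℝ} (h0 : 0 ≤ c1) (h1 : c1 ≤ 3) (h2 : 0 ≤ c2) (h3 : c2 ≤ 3)
    (hP : |P| ≤ β) (hq : |q| ≤ β) (n0 : |m0| ≤ β) (n1 : |m1| ≤ β) (n2 : |m2| ≤ β)
    (R l A0 A1 A2 : ℝ) : -(24 * β * (R ^ 2 + l ^ 2 + (A0 ^ 2 + A1 ^ 2 + A2 ^ 2))) ≤
      gd c1 c2 P q m0 m1 m2 R l A0 A1 A2 := by
  have b0 := (abs_nonneg _).trans hP
  have k : ∀ {m : ℝ} (x y : ℝ), |m| ≤ β → -(β * (x ^ 2 + y ^ 2)) ≤ 2 * m * x * y := fun x y h => by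
    obtain ⟨a, b⟩ := abs_le.1 h
    nlinarith [mul_nonneg (sub_nonneg.2 a) (sq_nonneg (x + y)),
      mul_nonneg (sub_nonneg.2 b) (sq_nonneg (x - y))]
  have j : ∀ {m : ℝ} (x : ℝ), |m| ≤ β → -(β * x ^ 2) ≤ m * x ^ 2 := fun x h => by
    nlinarith [mul_nonneg (sub_nonneg.2 (abs_le.1 h).1) (sq_nonneg x)]
  have z := fun x : ℝ => mul_nonneg b0 (sq_nonneg x)
  have u1 : -(4 * β * (R ^ 2 + l ^ 2 + (A0 ^ 2 + A1 ^ 2 + A2 ^ 2))) ≤
      P * R ^ 2 + q * (A0 ^ 2 + A1 ^ 2 + A2 ^ 2) - 2 * (m0 * A0 + m1 * A1 + m2 * A2) * R := by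
    nlinarith [k A0 (-R) n0, k A1 (-R) n1, k A2 (-R) n2, j R hP, j A0 hq, j A1 hq, j A2 hq, z l,
      z A0, z A1, z A2]
  have u2 : -(4 * β * (R ^ 2 + l ^ 2 + (A0 ^ 2 + A1 ^ 2 + A2 ^ 2))) ≤
      q * l ^ 2 + P * (A0 ^ 2 + A1 ^ 2 + A2 ^ 2) + 2 * (m0 * A0 + m1 * A1 + m2 * A2) * l := by
    nlinarith [k A0 l n0, k A1 l n1, k A2 l n2, j l hq, j A0 hP, j A1 hP, j A2 hP, z R, z A0, z A1,
      z A2]
  have t : 0 ≤ 4 * β * (R ^ 2 + l ^ 2 + (A0 ^ 2 + A1 ^ 2 + A2 ^ 2)) := by positivity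
  have v1 := mul_le_mul_of_nonneg_left u1 h0
  have v2 := mul_le_mul_of_nonneg_left u2 h2
  simp only [gd]
  nlinarith [mul_le_mul_of_nonneg_right h1 t, mul_le_mul_of_nonneg_right h3 t]

theorem gd_add (c1 c2 P q m0 m1 m2 P' q' n0 n1 n2 R l A0 A1 A2 : ℝ) :
    gd c1 c2 (P + P') (q + q') (m0 + n0) (m1 + n1) (m2 + n2) R l A0 A1 A2 =
      gd c1 c2 P q m0 m1 m2 R l A0 A1 A2 + gd c1 c2 P' q' n0 n1 n2 R l A0 A1 A2 := by
  simp only [gd]; ring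

end Vale.Agent.P354FN
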