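import Vale.Agent.P354FN.Fam
import Vale.Agent.P354EF.Defs
import Vale.Agent.P354EF.Ph

/-!
The lid function of the state is causal for the perturbed symbol.
-/

open scoped ContDiff
open Set

noncomputable section

namespace Vale.Agent.P354FN

open Vale.Agent.P354XG Vale.Agent.P354XD Vale.Agent.P354XR Vale.Agent.P354XI Vale.Agent.P354Z
open Vale.Agent.P354XT Vale.Agent.P354BO Vale.Agent.P354XF Vale.Agent.P354XI.Ibp
open Vale.Agent.P354EF (fldO fO C2 Ph Ph_is Ph_hom re_del)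

theorem cl_of {A ι A' : Type} [CommRing A] [Algebra ℂ A] [CommRing A'] [Algebra ℂ A'] {b : Brg A ι}
    {Φ : Fld A'} {π : A →ₐ[ℂ] A'} {M a : ℝ} {x : Φ.B.Pt} {u v : A} (h : Φ.Is) (H : b.Hom Φ π M a)
    (hb : b.Is) (hc : ∀ f, Φ.B.c (π f) = π (b.T.G.c f)) (rd : ∀ c e, Φ.B.Re (π (b.del c e)))
    (rs : Φ.B.Re (π b.smi)) (s0 : 0 < Φ.B.val x (π b.smi)) {k cm ε lam : ℝ} {τ : Fin 5 → ℝ}
    (k1 : 1 ≤ k) (ha : |a| ≤ k) (hM : |M| ≤ k) (z : (kw Φ M a).Zone Φ.B k x) (c0 : 0 < cm)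
    (cn : Cone cm M a (Φ.pr x).2 (fun i => Φ.B.val x (Φ.w i)) τ) (n : τ 1 < 0)
    (d : ∀ c e, Φ.B.md x (π (b.del c e)) ≤ ε) (hε : 25 * ε < cm ^ 4) (hu : Bs b Φ π u)
    (fu : Fut b Φ π x u) (hv : Bs b Φ π v) (g : gr Φ x (π v) = τ)
    (p : 0 < Φ.B.val x (π (b.T.G.tp v))) (l0 : 0 ≤ lam) : Cn (kw Φ M a) Φ.B cm x τ ∧
    Gq (kw Φ M a) Φ.B (fun c e => π (b.del c e)) x (lam • gr Φ x (π u)) (lam • gr Φ x (π u)) ≤ 0 ∧
    Gs Φ M a (fun c e => π (b.del c e)) x (lam • gr Φ x (π u)) τ ≤ 0 := by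
  have vr : Φ.B.val x (kw Φ M a).r = _ := h.val_r x
  rw [KW.Zone, vr] at z
  have f := fut_of h H hb hc rd rs s0 hv p (by
    have := Zn.tau_neg (w := fun i => Φ.B.val x (Φ.w i)) ⟨k1, ha, hM, z.1, z.2,
      (kw_is h M a).val_one x⟩ c0 (fun a b => (abs_val_le x _).trans (d a b)) hε cn n
    rw [g, Gs, gq_eq h]
    exact add_neg this this)
  refine ⟨by rw [Cn, vr]; exact cn, ?_, ?_⟩
  · have := mul_nonpos_of_nonneg_of_nonpos (mul_self_nonneg lam)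
      (gs_le h H hb hc rd rs s0 hu hu fu fu)
    rw [mul_assoc, ← gs_smul, gs_comm, ← gs_smul, Gs] at this
    linarith
  · rw [gs_smul, ← g]
    exact mul_nonpos_of_nonneg_of_nonpos l0 (gs_le h H hb hc rd rs s0 hu hv fu f)

variable {c : Cs} {E : Est} (h : Nr c E)

variable (s : ℤ)

theorem ef_R : (E.K1 c).R = (Ph h s).R := by
  rw [← h.kk]
  ext u
  rw [kk_R]
  simp [Ph, fldO, Hp.kc, pI, pT]
  rfl

theorem ef_smi : h.raw.brg.smi = (Ph h s).r * (Ph h s).r +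
    rl _ E.a * rl _ E.a * (Ph h s).w 2 * (Ph h s).w 2 := by
  rw [← (Ph_hom h s).r]
  rfl

theorem smi_re : (Ph h s).B.Re h.raw.brg.smi := by
  have k := Ph_is h s
  rw [ef_smi h s]
  exact (k.re_r.mul k.re_r).add ((((k.B.re_rl _).mul (k.B.re_rl _)).mul (k.wre 2)).mul (k.wre 2))

theorem smi_pos (x : (Ph h s).B.Pt) : 0 < (Ph h s).B.val x h.raw.brg.smi := by
  have k := Ph_is h s
  rw [ef_smi h s, val_add, k.B.val_mul k.re_r, mul_assoc, mul_assoc, k.B.val_mul (k.B.re_rl _),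
    k.B.val_mul (k.B.re_rl _), k.B.val_mul (k.wre 2), k.B.val_rl, k.val_r]
  have : 0 < ((Ph h s).pr x).2 := (h.co.pos _ x.1.2).1
  nlinarith [mul_self_nonneg (E.a * (Ph h s).B.val x ((Ph h s).w 2))]

theorem bs_of {u : Sm (on E.O1)} (b : Base u) : Bs h.raw.brg (Ph h s) (AlgHom.id ℂ _) u := by
  obtain ⟨-, e1, e2⟩ := kT_HB h.co h.M0 E.M E.a
  have h1 : (kT E.O1 c.M E.M E.a).H u = 0 := e1 ▸ b.H
  have h2 : (kT E.O1 c.M E.M E.a).B u = 0 := e2 ▸ (P354EF.base_eu h.co b).1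
  refine ⟨b.re, fun v => by cases v; exacts [h1, h2], ?_⟩
  have := (Ph_is h 0).spin u ⟨h1.trans (by simp), h2.trans (by simp)⟩
  rwa [show (Ph h 0).s = 0 from Int.cast_zero, Complex.ofReal_zero, mul_zero, neg_zero, map_zero,
    zero_mul] at this

include h in
theorem base_fO {φ : ℝ × ℝ → ℝ} (e : ContDiff ℝ ∞ φ) : Base (fO E.O1 φ) :=
  ⟨P354EF.re_fO h.co.op e, by simp [Hp.H_ap, P354EF.d_fO h.co.op e]⟩

theorem fut_sig (S : E.Shape c) (x : (Ph h s).B.Pt) :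
    Fut h.raw.brg (Ph h s) (AlgHom.id ℂ _) x E.sig :=
  have := S.sg _ x.1.2
  ⟨this.1, this.2.1, this.2.2⟩

theorem tp_fO (S : E.Shape c) {φ : ℝ × ℝ → ℝ} (e : ContDiff ℝ ∞ φ) : E.G1.tp (fO E.O1 φ) =
    -((hp _).Ni * (Ph h s).R (fO E.O1 φ)) + (E.d1 c (.inl (1, 0)) * (Ph h s).T (fO E.O1 φ) +
      E.d1 c (.inl (1, 1)) * (Ph h s).R (fO E.O1 φ)) := by
  have := P354CV.f4_G1 S 1 (fO E.O1 φ)
  rw [← ef_R h s]
  simp only [f4, Matrix.cons_val, Fin.sum_univ_six, KC.bs, KC.kerr, KC.tp, KC.V_ap] at this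
  obtain ⟨-, -, d⟩ := P354EF.d_fO h.co.op e
  rw [this, show (Ph h s).T = (E.K1 c).T from rfl]
  simp [Est.K1, kI, kk, Hp.kc, Hp.P_ap, Hp.Q_ap, Hp.H_ap, Hp.B_ap, d]

/-- Linear functions. -/
def lf (p q : ℝ) (z : ℝ × ℝ) : ℝ := p * z.1 + q * z.2

theorem lf_sm (p q : ℝ) : ContDiff ℝ ∞ (lf p q) := by unfold lf; fun_prop

theorem lf_fd (p q : ℝ) (z v : ℝ × ℝ) : fderiv ℝ (lf p q) z v = p * v.1 + q * v.2 := by
  unfold lf
  rw [(((hasFDerivAt_fst (𝕜 := ℝ) (p := z)).const_mul p).fun_add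
    ((hasFDerivAt_snd (𝕜 := ℝ) (p := z)).const_mul q)).fderiv]
  simp

theorem gr_lf {A : Type} [CommRing A] [Algebra ℂ A] {Φ : Fld A} (k : Φ.Is) (x : Φ.B.Pt)
    (x0 x1 : ℝ) : gr Φ x (Φ.fn (lf x0 (x1 + Φ.f (Φ.pr x).2 * x0))) = ![x0, x1, 0, 0, 0] := by
  funext i
  have := fun i => (congrArg (Φ.B.val x) (k.Lf _ (lf_sm x0 (x1 + Φ.f (Φ.pr x).2 * x0)) i)).trans
    (val_zero x)
  fin_cases i
  exacts [(val_T k (lf_sm _ _) x).trans (by simp [dt, lf_fd]),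
    (val_R k (lf_sm _ _) x).trans (by simp [dt, dr, lf_fd]), this 0, this 1, this 2]

theorem cone_c2 {cm M a r x0 x1 : ℝ} {w : Fin 3 → ℝ} (one : w 0 ^ 2 + w 1 ^ 2 + w 2 ^ 2 = 1)
    (c0 : 0 < cm) (c1 : cm ≤ 1) (t : C2 cm M a r x0 x1) : Cone cm M a r w ![x0, x1, 0, 0, 0] := by
  have P : cP M a r ![x0, x1, 0, 0, 0] = P354BF.De M a r * x1 + 2 * (r ^ 2 + a ^ 2) * x0 := by
    simp only [cP, Matrix.cons_val, P354BF.De]; ring
  have n : x1 ≤ 0 := neg_nonneg.1 ((mul_nonneg c0.le (abs_nonneg _)).trans t.le)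
  refine ⟨fun i => ?_, P ▸ t.lo, P ▸ le_trans ?_ t.an⟩
  · fin_cases i <;> simp [t.le, n, abs_of_nonpos n]
    nlinarith
  · simp only [cm0, cm1, cm2, Matrix.cons_val]
    nlinarith [congrArg (· * (a * x0 * w 2) ^ 2) one, sq_nonneg (a * x0 * w 2)]

theorem tp_lin (S : E.Shape c) {cm δ x0 x1 : ℝ} (x : (Ph h s).B.Pt) (c1 : cm ≤ 1)
    (t : cm * |x0| ≤ -x1) (n : x1 < 0) (d1 : ∀ e, ‖fv (E.d1 c (.inl (1, e))) x.1.1‖ ≤ δ)
    (hδ : 4 * δ ≤ cm) {φ : ℝ × ℝ → ℝ} (sm : ContDiff ℝ ∞ φ)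
    (g : gr (Ph h s) x ((Ph h s).fn φ) = ![x0, x1, 0, 0, 0]) :
    0 < (Ph h s).B.val x (E.G1.tp (fO E.O1 φ)) := by
  have k := Ph_is h s
  have e0 : (Ph h s).B.val x ((Ph h s).T (fO E.O1 φ)) = x0 := congrFun g 0
  have e1 : (Ph h s).B.val x ((Ph h s).R (fO E.O1 φ)) = x1 := congrFun g 1
  have r : (Ph h s).B.Re (fO E.O1 φ) := k.re _ sm
  obtain ⟨q1, an⟩ := P354EF.pt_an h s x
  have q0 : 0 < nq x.1.1 := by linarith
  have ni : (Ph h s).B.val x (hp _).Ni = (nq x.1.1)⁻¹ := by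
    rw [val, show (Ph h s).B.ev x (hp _).Ni = _ from P354CV.fv_rs (rs_Ni h.off) x.1.2,
      ← Complex.ofReal_inv, Complex.ofReal_re]
  have i0 : 2 / 3 ≤ (nq x.1.1)⁻¹ := (le_inv_comm₀ (by norm_num) q0).2 (by linarith)
  rw [tp_fO h s S sm, val_add, val_add, val_neg, mul_comm (hp _).Ni, mul_comm (E.d1 c _),
    mul_comm (E.d1 c _), k.B.val_mul (k.skR.isRe r), k.B.val_mul (k.skR.isRe r),
    k.B.val_mul (k.skT.isRe r), e0, e1, ni]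
  have u0 : |(Ph h s).B.val x (E.d1 c (.inl (1, 0)))| ≤ δ := (abs_val_le x _).trans (d1 0)
  have u1 : |(Ph h s).B.val x (E.d1 c (.inl (1, 1)))| ≤ δ := (abs_val_le x _).trans (d1 1)
  generalize (Ph h s).B.val x (E.d1 c (.inl (1, 0))) = p at *
  generalize (Ph h s).B.val x (E.d1 c (.inl (1, 1))) = q at *
  have := neg_abs_le (x0 * p)
  rw [abs_mul] at this
  nlinarith [mul_le_mul_of_nonneg_left (u0.trans (show δ ≤ cm / 4 by linarith)) (abs_nonneg x0),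
    (abs_le.1 u1).2]

/-- The clauses of At on eta = lam d sig and tau = (x0, x1, 0, 0, 0). -/
theorem eta_cl (S : E.Shape c) {k cm ε δ x0 x1 lam : ℝ} (x : (Ph h s).B.Pt) (k1 : 1 ≤ k)
    (ha : |E.a| ≤ k) (hM : |E.M| ≤ k) (z : (kw (Ph h s) E.M E.a).Zone (Ph h s).B k x) (c0 : 0 < cm)
    (c1 : cm ≤ 1) (t : C2 cm E.M E.a x.1.1.2.1 x0 x1) (n : x1 < 0)
    (d : ∀ a b, (Ph h s).B.md x (h.raw.brg.del a b) ≤ ε) (hε : 25 * ε < cm ^ 4)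
    (d1 : ∀ e, ‖fv (E.d1 c (.inl (1, e))) x.1.1‖ ≤ δ) (hδ : 4 * δ ≤ cm) (l0 : 0 ≤ lam) :
    Cn (kw (Ph h s) E.M E.a) (Ph h s).B cm x ![x0, x1, 0, 0, 0] ∧
    Gq (kw (Ph h s) E.M E.a) (Ph h s).B h.raw.brg.del x (lam • gr (Ph h s) x E.sig)
      (lam • gr (Ph h s) x E.sig) ≤ 0 ∧
    Gs (Ph h s) E.M E.a h.raw.brg.del x (lam • gr (Ph h s) x E.sig) ![x0, x1, 0, 0, 0] ≤ 0 := by
  have k := Ph_is h s
  have g := gr_lf k x x0 x1
  exact cl_of k (Ph_hom h s) h.raw.brg_is (fun _ => rfl) (re_del h s) (smi_re h s) (smi_pos h s x)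
    k1 ha hM z c0 (cone_c2 ((kw_is k E.M E.a).val_one x) c0 c1 t) n d hε (bs_of h s S.b1)
    (fut_sig h s S x) (bs_of h s (base_fO h (lf_sm _ _))) g
    (tp_lin h s S x c1 t.le n d1 hδ (lf_sm _ _) g) l0

end Vale.Agent.P354FN
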