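import Vale.Agent.P354FN.Re
import Vale.Agent.P354XI.MCv

/-!
The estimate in finite time with weights whose gradient is causal for the perturbed operator.
-/

namespace Vale.Agent.P354FN

open Vale.Agent.P354XG (Der D_mul D_add D_sub D_neg D_alg D_num D_one D_zero)
open Vale.Agent.P354XI Vale.Agent.P354XI.Ibp Vale.Agent.P354YF Finset

variable {A : Type} [CommRing A] [Algebra ℂ A]

/-- Bounds for the jets of order one. -/
def J1 {ι : Type} (B : Ibp A) (X : ι → Der A) (x : B.Pt) (f : A) (s : ℝ) : Prop :=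
  B.md x f ≤ s ∧ ∀ d, B.md x (X d f) ≤ s

section
variable {ι : Type} {B : Ibp A} {X : ι → Der A} {x : B.Pt} {f g : A} {s t : ℝ}

theorem J1.le (h : J1 B X x f s) (e : s ≤ t) : J1 B X x f t := ⟨h.1.trans e, fun d => (h.2 d).trans e⟩
theorem J1.add (h : J1 B X x f s) (k : J1 B X x g t) : J1 B X x (f + g) (s + t) :=
  ⟨(md_add _ _ _).trans (add_le_add h.1 k.1), fun d => by
    rw [D_add]; exact (md_add _ _ _).trans (add_le_add (h.2 d) (k.2 d))⟩
theorem J1.neg (h : J1 B X x f s) : J1 B X x (-f) s :=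
  ⟨(md_neg _ _).le.trans h.1, fun d => by rw [D_neg, md_neg]; exact h.2 d⟩
theorem J1.sub (h : J1 B X x f s) (k : J1 B X x g t) : J1 B X x (f - g) (s + t) := by
  rw [sub_eq_add_neg]; exact h.add k.neg
theorem J1.mul (h : J1 B X x f s) (k : J1 B X x g t) : J1 B X x (f * g) (2 * (s * t)) := by
  have n := fun f => md_nonneg (B := B) x f
  have s0 := (n _).trans h.1
  have t0 := (n _).trans k.1
  refine ⟨by rw [md_mul]; linarith [mul_le_mul h.1 k.1 (n _) s0, mul_nonneg s0 t0], fun d => ?_⟩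
  rw [D_mul]
  refine (md_add _ _ _).trans ?_
  rw [md_mul, md_mul]
  linarith [mul_le_mul h.1 (k.2 d) (n _) s0, mul_le_mul k.1 (h.2 d) (n _) t0]
theorem j1_cst (e : B.md x f ≤ s) (d : ∀ d, X d f = 0) : J1 B X x f s :=
  ⟨e, fun a => by rw [d, md_zero]; exact (md_nonneg _ _).trans e⟩
theorem j1_zero (e : 0 ≤ s) : J1 B X x 0 s := j1_cst ((md_zero x).le.trans e) fun _ => D_zero _
theorem j1_one : J1 B X x 1 1 := j1_cst (by simp [md]) fun _ => D_one _
theorem j1_two : J1 B X x 2 2 := (j1_one.add j1_one).le (by norm_num) |> (one_add_one_eq_two (R := A) ▸ ·)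
theorem j1_rl (h : B.Is) (e : |t| ≤ s) : J1 B X x (rl A t) s :=
  j1_cst ((h.md_rl x t).le.trans e) fun _ => D_rl _ _
end

/-- The five letters, the symbol, the multiplier. -/
def lx (K : KW A) : Fin 5 → Der A := ![K.T, K.R, K.L 0, K.L 1, K.L 2]
noncomputable def gW (K : KW A) : Fin 5 → Fin 5 → A :=
  ![![K.ca * K.ca * K.e 2, 2 * K.W, 2 * K.ca * K.e 0, 2 * K.ca * K.e 1, 2 * K.ca * K.e 2],
    ![0, K.De, 0, 0, 0], ![0, 0, 1, 0, 0], ![0, 0, 0, 1, 0], ![0, 2 * K.ca, 0, 0, 1]]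
noncomputable def ym (K : KW A) (k : ℝ) : Fin 5 → A :=
  ![rl A (k ^ 2)⁻¹ * K.W, -1, 0, 0, rl A (k ^ 2)⁻¹ * K.ca]

/-- The cone at a point, and the perturbed symbol. -/
def Cn (K : KW A) (B : Ibp A) (c : ℝ) (x : B.Pt) (ξ : Fin 5 → ℝ) : Prop :=
  Cone c K.M K.a (B.val x K.r) (fun i => B.val x (K.w i)) ξ
noncomputable def Gq (K : KW A) (B : Ibp A) (de : Fin 5 → Fin 5 → A) (x : B.Pt) (ξ η : Fin 5 → ℝ) :
    ℝ := qf (fun a b => B.val x (gW K a b + de a b)) ξ η

/-- The conditions at a point: the gradient of the weight is past directed up to Bd. -/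
structure At (K : KW A) (B : Ibp A) (k c κ ε : ℝ) (Om Bd : A) (de : Fin 5 → Fin 5 → A)
    (x : B.Pt) : Prop where
  zone : K.Zone B k x
  de1 : ∀ a b, J1 B (lx K) x (de a b) ε
  ex : ∃ ξ η τ : Fin 5 → ℝ, Cn K B c x ξ ∧ κ * B.val x Om ≤ -ξ 1 ∧ Cn K B c x τ ∧ τ 1 < 0 ∧
    Gq K B de x η η ≤ 0 ∧ Gq K B de x η τ + Gq K B de x τ η ≤ 0 ∧
    ∀ a, |B.val x (lx K a Om) + ξ a + η a| ≤ B.val x Bd

/-- The weight vanishes at the point. -/
def Off (K : KW A) (B : Ibp A) (Om : A) (x : B.Pt) : Prop :=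
  B.val x Om = 0 ∧ ∀ a, B.val x (lx K a Om) = 0

variable {K : KW A} {B : Ibp A} {k c κ ε : ℝ} {x : B.Pt} {Om Bd : A} {de : Fin 5 → Fin 5 → A}
  (h : K.Is B)
include h

theorem let_lx : Let B (lx K) where
  is := h.is
  sk a := by fin_cases a; exacts [h.sT, h.sR, h.sL 0, h.sL 1, h.sL 2]
  cm a b := by
    have z : ∀ {f g : A}, f = g → f - g = 0 := fun e => sub_eq_zero.2 e
    fin_cases a <;> fin_cases b
    all_goals first
      | exact Or.inl fun u => sub_self _
      | exact Or.inl fun u => z (h.R_T u)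
      | exact Or.inl fun u => z (h.R_T u).symm
      | exact Or.inl fun u => z (h.L_T _ u)
      | exact Or.inl fun u => z (h.L_T _ u).symm
      | exact Or.inl fun u => z (h.L_R _ u)
      | exact Or.inl fun u => z (h.L_R _ u).symm
      | exact Or.inr ⟨4, Or.inr fun u => h.LL 0 u⟩
      | exact Or.inr ⟨2, Or.inr fun u => h.LL 1 u⟩
      | exact Or.inr ⟨3, Or.inr fun u => h.LL 2 u⟩
      | exact Or.inr ⟨4, Or.inl fun u => sub_eq_iff_eq_add'.2 (h.L10 u)⟩
      | exact Or.inr ⟨2, Or.inl fun u => sub_eq_iff_eq_add'.2 (h.L21 u)⟩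
      | exact Or.inr ⟨3, Or.inl fun u => sub_eq_iff_eq_add'.2 (eq_add_of_sub_eq (h.L20 u).symm)⟩

theorem W0_eq (u : A) : K.W0 u = Pe (lx K) (gW K) u := by
  have ee := h.ee
  simp only [KW.e, Matrix.cons_val] at ee
  simp only [KW.W0, Pe, lx, gW, Fin.sum_univ_five, Fin.sum_univ_three, Matrix.cons_val, K.S_ap,
    K.Ad_ap, KW.e, D_add, D_mul, D_sub, D_neg, D_one, K.D_ca, h.tab, h.T_w, h.L_T]
  linear_combination (K.ca * K.ca * K.T (K.T u)) * ee

theorem re_gW (a b : Fin 5) : B.Re (gW K a b) := by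
  have t := fun i => (re_two.mul h.re_a).mul (h.re_e i)
  fin_cases a <;> fin_cases b
  all_goals first
    | exact re_zero | exact re_one | exact t _ | exact h.re_De | exact re_two.mul h.re_W
    | exact re_two.mul h.re_a | exact (h.re_a.mul h.re_a).mul (h.re_e 2)

theorem re_ym (a : Fin 5) : B.Re (ym K k a) := by
  fin_cases a
  exacts [(h.is.re_rl _).mul h.re_W, re_one.neg, re_zero, re_zero, (h.is.re_rl _).mul h.re_a]

theorem val_gW : (fun a b => B.val x (gW K a b)) =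
    gR K.M K.a (B.val x K.r) fun i => B.val x (K.w i) := by
  funext a b
  fin_cases a <;> fin_cases b <;>
    simp [gW, gR, KW.e, val_zero, val_one, val_two, h.val_De, h.val_W, h.val_a, val_neg, val_sub,
      h.is.val_mul re_two, h.is.val_mul h.re_a, h.is.val_mul (h.re_w _), mul_assoc, pow_two]

theorem val_ym : (fun a => B.val x (ym K k a)) = yR k K.a (B.val x K.r) := by
  funext a
  fin_cases a <;> simp [ym, yR, val_zero, val_one, h.val_W, h.val_a, val_neg,
    h.is.val_mul (h.is.re_rl _), h.is.val_rl, pow_two]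

section
variable (k1 : 1 ≤ k) (ha : |K.a| ≤ k) (hM : |K.M| ≤ k) (z : K.Zone B k x)
include k1 ha hM z

theorem j1_K : J1 B (lx K) x K.W (4 * k ^ 2) ∧ J1 B (lx K) x K.r k ∧
    (∀ i, J1 B (lx K) x (K.w i) 1) ∧ ∀ a b, J1 B (lx K) x (gW K a b) (24 * k ^ 2) := by
  have z0 : ∀ {s}, 0 ≤ s → B.md x 0 ≤ s := (md_zero x).le.trans
  have a : J1 B (lx K) x K.ca k := j1_rl h.is ha
  have r : J1 B (lx K) x K.r k := by
    refine ⟨(h.is.md_re h.re_r x).le.trans (h.zone_bd k1 ha hM z).1, fun d => ?_⟩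
    fin_cases d
    · exact (show K.T K.r = 0 from h.T_r).symm ▸ z0 (by linarith)
    · exact (show K.R K.r = 1 from h.R_r).symm ▸ (j1_one (X := lx K)).1.trans k1
    all_goals exact (show K.L _ K.r = 0 from h.L_r _).symm ▸ z0 (by linarith)
  have m : ∀ i, B.md x (K.w i) ≤ 1 := fun i => (h.is.md_re (h.re_w i) x).le.trans (h.abs_w i x)
  have w : ∀ i, J1 B (lx K) x (K.w i) 1 := fun i => ⟨m i, fun d => by
    fin_cases d <;> fin_cases i <;> simp [lx, h.tab, h.T_w, h.R_w, md_zero, md_neg, m]⟩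
  have e : ∀ i, J1 B (lx K) x (K.e i) 3 := fun i => by
    fin_cases i
    exacts [((w 2).mul (w 0)).neg.le (by norm_num), ((w 2).mul (w 1)).neg.le (by norm_num),
      (j1_one.sub ((w 2).mul (w 2))).le (by norm_num)]
  have W : J1 B (lx K) x K.W (4 * k ^ 2) := ((r.mul r).add (a.mul a)).le (by linarith)
  have kk : k ≤ k ^ 2 := by nlinarith
  have t : ∀ i, J1 B (lx K) x (2 * K.ca * K.e i) (24 * k ^ 2) := fun i =>
    ((j1_two.mul a).mul (e i)).le (by linarith)
  have t0 : J1 B (lx K) x 0 (24 * k ^ 2) := j1_zero (by positivity)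
  have t1 : J1 B (lx K) x 1 (24 * k ^ 2) := j1_one.le (by linarith)
  have t2 : J1 B (lx K) x K.De (24 * k ^ 2) := (((r.mul r).sub ((j1_two.mul
    (j1_rl h.is hM)).mul r)).add (a.mul a)).le (by linarith [sq_nonneg k])
  have t3 : J1 B (lx K) x (2 * K.W) (24 * k ^ 2) := (j1_two.mul W).le (by linarith [sq_nonneg k])
  have t4 : J1 B (lx K) x (2 * K.ca) (24 * k ^ 2) := (j1_two.mul a).le (by linarith)
  have t5 : J1 B (lx K) x (K.ca * K.ca * K.e 2) (24 * k ^ 2) :=
    ((a.mul a).mul (e 2)).le (by linarith [sq_nonneg k])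
  refine ⟨W, r, w, fun a b => ?_⟩
  fin_cases a <;> fin_cases b
  all_goals first | exact t0 | exact t1 | exact t _ | exact t2 | exact t3 | exact t4 | exact t5

theorem j1_ym (a : Fin 5) : J1 B (lx K) x (ym K k a) 8 := by
  have g : J1 B (lx K) x (rl A (k ^ 2)⁻¹) (k ^ 2)⁻¹ := j1_rl h.is (abs_of_pos (by positivity)).le
  have g2 : (k ^ 2)⁻¹ * k ^ 2 = 1 := inv_mul_cancel₀ (by positivity)
  fin_cases a
  exacts [(g.mul (j1_K h k1 ha hM z).1).le (by linarith), j1_one.neg.le (by norm_num),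
    j1_zero (by norm_num), j1_zero (by norm_num),
    (g.mul (j1_rl h.is (ha.trans (show k ≤ k ^ 2 by nlinarith)))).le (by linarith)]

/-- The terms of first order. -/
theorem op_le {al be ga : ℝ} (h1 : |al| ≤ k) (h2 : |be| ≤ k) (h3 : |ga| ≤ k) (u : A) :
    B.md x (K.Op al be ga u - K.W0 u) ^ 2 ≤ 36 * k ^ 4 * qq B (lx K) x 1 u := by
  obtain ⟨b1, -, b3, -⟩ := h.zone_bd k1 ha hM z
  have n := fun f => md_nonneg (B := B) x f
  have e : K.Op al be ga u - K.W0 u = rl A al * K.De' * K.R u + rl A be * K.r * K.T u +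
      rl A ga * K.ca * K.w 2 * (ci A * K.T u) := by rw [KW.Op]; ring
  have t := (md_add x _ _).trans (add_le_add_left (md_add x (rl A al * K.De' * K.R u)
    (rl A be * K.r * K.T u)) (B.md x (rl A ga * K.ca * K.w 2 * (ci A * K.T u))))
  rw [← e, md_mul _ _ (ci A * _), h.is.md_ci] at t
  simp only [md_mul, h.is.md_rl, h.is.md_re h.re_De', h.is.md_re h.re_r, h.is.md_re h.re_a,
    h.is.md_re (h.re_w 2), h.val_a] at t
  have k0 : 0 ≤ k := by linarith
  have m1 := mul_le_mul_of_nonneg_right (mul_le_mul h1 b3 (abs_nonneg _) k0) (n (K.R u))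
  have m2 := mul_le_mul_of_nonneg_right (mul_le_mul h2 b1 (abs_nonneg _) k0) (n (K.T u))
  have m3 := mul_le_mul_of_nonneg_right (mul_le_mul (mul_le_mul h3 ha (abs_nonneg _) k0)
    (h.abs_w 2 x) (abs_nonneg _) (by positivity)) (n (K.T u))
  have s := pow_le_pow_left₀ (n _) (t.trans (show _ ≤ k ^ 2 * (4 * B.md x (K.R u) +
    2 * B.md x (K.T u)) by linarith)) 2
  have q0 : B.md x (K.T u) ^ 2 ≤ _ := md_X (X := lx K) x 0 u
  have q1 : B.md x (K.R u) ^ 2 ≤ _ := md_X (X := lx K) x 1 u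
  have : (4 * B.md x (K.R u) + 2 * B.md x (K.T u)) ^ 2 ≤ 36 * qq B (lx K) x 1 u := by
    linarith [sq_nonneg (B.md x (K.R u) - B.md x (K.T u))]
  linarith [mul_le_mul_of_nonneg_left this (show 0 ≤ k ^ 4 by positivity)]

end

/-- One field. -/
theorem fin1 (k1 : 1 ≤ k) (ha : |K.a| ≤ k) (hM : |K.M| ≤ k) (c0 : 0 < c) (c1 : c ≤ 1)
    (hε : 10 ^ 6 * k ^ 12 * ε ≤ c ^ 4) (hO : B.Wt Om) (hB : B.Wt Bd) (rd : ∀ a b, B.Re (de a b))
    (H : ∀ x, At K B k c κ ε Om Bd de x ∨ Off K B Om x) (u : A) :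
    (c ^ 2 / (1600 * k ^ 12) * κ - 2 * 10 ^ 6 * k ^ 4) * nj B (lx K) Om 1 u ≤
      15000 * k ^ 2 * nj B (lx K) Bd 1 u + B.nsq Om (K.W0 u + Pe (lx K) de u) := by
  have k2 : 1 ≤ k ^ 2 := one_le_pow₀ k1
  have γ0 : 0 < c ^ 2 / (1600 * k ^ 12) := by positivity
  have rG := fun a b => (re_gW h a b).add (rd a b)
  have jG : ∀ {x}, At K B k c κ ε Om Bd de x → ∀ a b,
      J1 B (lx K) x (gW K a b + de a b) (25 * k ^ 2) := fun H a b =>
    (((j1_K h k1 ha hM H.zone).2.2.2 a b).add (H.de1 a b)).le (by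
      linarith [pow_le_one₀ (n := 4) c0.le c1, mul_le_mul_of_nonneg_right (one_le_pow₀ (n := 12) k1)
        ((md_nonneg _ _).trans (H.de1 a b).1), (md_nonneg _ _).trans (H.de1 a b).1])
  have key : ∀ x, (∀ p, B.val x (rl A (c ^ 2 / (1600 * k ^ 12) * κ) * Om -
      rl A (15000 * k ^ 2) * Bd) * ∑ a, p a ^ 2 ≤ -cur (fun a b => B.val x (gW K a b + de a b))
        (fun a => B.val x (ym K k a)) (fun a => B.val x (lx K a Om)) p) ∧
      B.val x (rl A (c ^ 2 / (1600 * k ^ 12) * κ) * Om - rl A (15000 * k ^ 2) * Bd) ≤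
        -pr (fun a => B.val x (ym K k a)) fun a => B.val x (lx K a Om) := by
    intro x
    rw [val_sub, h.is.val_mul (h.is.re_rl _), h.is.val_mul (h.is.re_rl _), h.is.val_rl,
      h.is.val_rl]
    rcases H x with H | ⟨o, q⟩
    · obtain ⟨ξ, η, τ, cn, hk, ct, t, n, f, hb⟩ := H.ex
      have e : (fun a b => B.val x (gW K a b + de a b)) = gR K.M K.a (B.val x K.r)
          (fun i => B.val x (K.w i)) + fun a b => B.val x (de a b) := by
        rw [← val_gW h]; funext a b; exact val_add _ _ _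
      simp only [Gq, e] at n f
      have := Zn.pos ⟨k1, ha, hM, H.zone.1, H.zone.2, h.val_one x⟩ c0 c1
        (fun a b => (abs_val_le x _).trans (H.de1 a b).1) hε
        (fun a b => by rw [← e]; exact (abs_val_le x _).trans (jG H a b).1)
        (fun a => by rw [← val_ym h]; exact (abs_val_le x _).trans (j1_ym h k1 ha hM H.zone a).1)
        cn ct t n f hb
      have l := mul_le_mul_of_nonneg_left hk γ0.le
      rw [e, val_ym h]
      exact ⟨fun p => (mul_le_mul_of_nonneg_right (by linarith)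
        (sum_nonneg fun _ _ => sq_nonneg _)).trans (this.1 p), by linarith [this.2]⟩
    · have := mul_nonneg (show 0 ≤ 15000 * k ^ 2 by positivity) (hB.pos x)
      simp only [o, q, cur, pr, qf, mul_zero, zero_mul, sum_const_zero, add_zero, sub_zero,
        neg_zero, zero_sub]
      exact ⟨fun p => mul_nonpos_of_nonpos_of_nonneg (by linarith)
        (sum_nonneg fun _ _ => sq_nonneg _), by linarith⟩
  have E := energy (let_lx h) rG (re_ym (k := k) h) hO (B.K.sub_mem (B.K.mul_mem_left _ hO.K)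
    (B.K.mul_mem_left _ hB.K)) (((h.is.re_rl _).mul hO.re).sub ((h.is.re_rl _).mul hB.re))
    (k := 400 * k ^ 2) (fun x o a => by
      have H := (H x).resolve_right fun e => o e.1
      have y := j1_ym h k1 ha hM H.zone a
      exact ⟨y.1.trans (by linarith), (y.2 a).trans (by linarith), fun b d =>
        (y.mul (jG H b d)).le (by linarith)⟩) (fun x => (key x).1) (fun x => (key x).2) u
  have e : Pe (lx K) (fun a b => gW K a b + de a b) u = K.W0 u + Pe (lx K) de u := by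
    simp only [W0_eq h, Pe, add_mul, sum_add_distrib]
  rw [e, sub_eq_add_neg, ← neg_mul, ← rl_neg, nj_add_w, nj_rl_w, nj_rl_w] at E
  simp only [Fintype.card_fin, Nat.cast_ofNat] at E
  have p := nj_nonneg (X := lx K) h.is hO 1 u
  linarith [mul_le_mul_of_nonneg_right (pow_le_pow_right₀ k1 (show 2 ≤ 4 by norm_num)) p,
    mul_nonneg (show 0 ≤ k ^ 4 by positivity) p]

/-- A finite family of fields. -/
theorem finF (k1 : 1 ≤ k) (ha : |K.a| ≤ k) (hM : |K.M| ≤ k) (c0 : 0 < c) (c1 : c ≤ 1)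
    (hε : 10 ^ 6 * k ^ 12 * ε ≤ c ^ 4) (hO : B.Wt Om) (hB : B.Wt Bd) (rd : ∀ a b, B.Re (de a b))
    (H : ∀ x, At K B k c κ ε Om Bd de x ∨ Off K B Om x) {ι : Type} (s : Finset ι) (u : ι → A)
    {Cf : ℝ} {rho : A} (e : ∀ x, B.val x Om ≠ 0 → ∀ i ∈ s,
      B.md x (K.W0 (u i) + Pe (lx K) de (u i)) ^ 2 ≤
        Cf * ∑ j ∈ s, qq B (lx K) x 1 (u j) + B.val x rho) :
    (c ^ 2 / (1600 * k ^ 12) * κ - 2 * 10 ^ 6 * k ^ 4 - s.card * Cf) *
        ∑ i ∈ s, nj B (lx K) Om 1 (u i) ≤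
      15000 * k ^ 2 * ∑ i ∈ s, nj B (lx K) Bd 1 (u i) + s.card * B.J (Om * rho) := by
  have a := sum_le_sum fun i (hi : i ∈ s) => (fin1 h k1 ha hM c0 c1 hε hO hB rd H (u i)).trans
    (add_le_add_right (show _ ≤ Cf * ∑ j ∈ s, nj B (lx K) Om 1 (u j) + B.J (Om * rho) by
      simp only [nj]
      rw [← J_sum, ← J_rl, ← J_add]
      refine h.is.J_le (B.K.mul_mem_right _ hO.K) (B.K.add_mem (B.K.mul_mem_left _ (B.K.sum_mem
        fun _ _ => B.K.mul_mem_right _ hO.K)) (B.K.mul_mem_right _ hO.K)) fun x => ?_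
      rw [h.is.val_nsq hO.re, val_add, h.is.val_mul (h.is.re_rl _), h.is.val_rl, val_sum,
        h.is.val_mul hO.re]
      simp only [val_nj h.is, ← mul_sum]
      by_cases o : B.val x Om = 0
      · simp [o]
      · linarith [mul_le_mul_of_nonneg_left (e x o i hi) (hO.pos x)]) _)
  simp only [sum_add_distrib, ← mul_sum, sum_const, nsmul_eq_mul] at a
  linarith

end Vale.Agent.P354FN
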