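import Vale.Agent.P354HI.Props
import Vale.Agent.P354YA.Nis
import Vale.Agent.P354YT.Main

/-!
KCL: the functions of the scaffold.
-/

open scoped ContDiff
open Set Filter Topology Complex

noncomputable section

namespace Vale.Agent.P354FN

open Vale.Agent.P354n (R4)
open Vale.Agent.P354RC (cv bs sum_bs)
open Vale.Agent.P354XG Vale.Agent.P354XD Vale.Agent.P354XR Vale.Agent.P354HI
open Vale.Agent.P354XE (Tw rd eT Lo dr)
open Vale.Agent.P354YA (Ok2 dd ca cl cn cp rd_at Lo_at No_at cp_cd)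
open Vale.Agent.P354YT (Pm No al bp rd_sh al_cd bp_cd al_mid)

section
variable {J : Type} {G : Filter (J × E6)} [Loc G] {r0 : ℝ} {h : R4 → ℝ}

theorem op_rd (r : ℝ) : IsOpen {p : R4 | r < rd p} := isOpen_lt continuous_const P354XA.rd_cont

omit [Loc G] in
theorem k_smB (o : 0 ≤ r0) (e : ∀ᶠ p in G, r0 < p.2.2.1 ∧ p.2.2.2 ≠ 0)
    (s : ContDiffOn ℝ ∞ h {p | r0 < rd p}) : SmB G fun _ => h :=
  e.mono fun _ k => s.contDiffAt ((op_rd r0).mem_nhds
    (show r0 < _ by rw [rd_pj (o.trans_lt k.1) k.2]; exact k.1))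

theorem ks_rd (o : 0 ≤ r0) {φ : ℝ → ℝ} (s : ContDiff ℝ ∞ φ) : kf G (fun p => φ (rd p)) ∈ KS G r0 :=
  ⟨fun p => φ (rd p), fun p k => (s.contDiffAt.comp p (rd_at (o.trans_lt k))).contDiffWithinAt,
    fun p t => congrArg φ (rd_sh p t), rfl⟩

theorem db_T (e : ∀ p (t : ℝ), h (p + t • eT) = h p) : db 0 h = fun _ => 0 := by
  funext y
  by_cases d : DifferentiableAt ℝ h y
  · have k : HasDerivAt (fun t : ℝ => h (y + t • eT)) (fderiv ℝ h y ((1 : ℝ) • eT)) 0 :=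
      HasFDerivAt.comp_hasDerivAt_of_eq (0 : ℝ) d.hasFDerivAt
        (((hasDerivAt_id (0 : ℝ)).smul_const eT).const_add y) (by simp)
    simp only [e, one_smul] at k
    exact k.unique (hasDerivAt_const _ _)
  · simp [db, fderiv_zero_of_not_differentiableAt d]

theorem B_pb (o : Off G) {f : J → R4 → ℝ} (s : SmB G f) : (hp G).B (pb G f) = 0 := by
  have e := V_pb o s 0 0 0 0 0 1
  simpa [KC.V_ap, Hp.kc, (hp_is o).tco] using e

end

theorem Lo_sh (M a : ℝ) (p : R4) (t : ℝ) : Lo M a (p + t • eT) = Lo M a p := by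
  simp only [Lo, rd_sh]
  simp [eT, P354XE.Om]

theorem No_sh (p : R4) (t : ℝ) : No (p + t • eT) = No p := by
  simp only [No, rd_sh]
  simp [eT]

theorem kc_ks (K : Tw → Set E6) {r0 : ℝ} (o : 0 ≤ r0)
    (e : ∀ᶠ p in nb ⊤ K, r0 < p.2.2.1 ∧ p.2.2.2 ≠ 0) (l : Filter (Pz K)) {r1 r2 : ℝ} (u : r0 < r1)
    (v : ∀ᶠ p in l, p.1.2.2.1 ∈ Icc r1 r2) : Kc (ev K) l (hp _) (KS _ r0) := by
  have f : Off (nb ⊤ K) := e.mono fun _ k => ⟨(o.trans_lt k.1).ne', k.2⟩
  refine ⟨?_, ?_, ?_, ?_, ?_⟩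
  · rintro _ ⟨h, s, t, rfl⟩
    have c : IsCompact {p : R4 | p.1 = 0 ∧ rd p ∈ Icc r1 r2} :=
      Metric.isCompact_of_isClosed_isBounded ((isClosed_eq continuous_fst continuous_const).inter
        (isClosed_Icc.preimage P354XA.rd_cont)) (isBounded_iff_forall_norm_le.2 ⟨r2, fun q k => by
          simpa [k.1] using (P354XA.norm_le q).trans (add_le_add_right k.2.2 _)⟩)
    obtain ⟨C, b⟩ := c.exists_bound_of_continuousOn
      (s.continuousOn.mono fun _ k => u.trans_le k.2.1)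
    refine Asymptotics.IsBigO.of_bound C (v.mono fun p k => ?_)
    have n := eventually_top.1 (ev_nb_on e) p.1.1 p.1.2 p.2
    rw [show ev K p (kf _ h) = _ from ev_pz K (rs_pb f (k_smB o e s)) p, norm_real, norm_one,
      mul_one, ← t _ (-(pj p.1.2).1)]
    exact b _ ⟨by simp [eT], by rw [rd_sh, rd_pj (o.trans_lt n.1) n.2]; exact k⟩
  · rintro _ ⟨h, s, t, rfl⟩ d
    refine ⟨db d h, fun p k => ((P354RC.at_fd (s.contDiffAt ((op_rd r0).mem_nhds k))).clm_apply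
      contDiffAt_const).contDiffWithinAt, fun p x => ?_, L_pb f (k_smB o e s) d⟩
    simp only [db, ← fderiv_comp_add_right, t]
  · rintro _ ⟨h, s, -, rfl⟩
    exact H_pb f (k_smB o e s)
  · rintro _ ⟨h, s, -, rfl⟩
    exact B_pb f (k_smB o e s)
  · rintro _ ⟨h, s, t, rfl⟩
    rw [kf, L_pb f (k_smB o e s), db_T t]
    exact (rs_pb f (Eventually.of_forall fun _ => contDiffAt_const)).ext rs_zero
      (Eventually.of_forall fun _ => ofReal_zero)

theorem tb_of {J : Type} {G : Filter (J × E6)} [Loc G] {c : Pm} (k : Ok2 c) (k1 : c.k = 1)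
    (o : Pos G) (e : ∀ᶠ p in G, |dd c (pj p.2)| < 1 / 4) : Tb G c := by
  have f := o.off
  have M0 := k.1.M0
  have T := k.1.tauI
  have s : ∀ d, ContDiffOn ℝ ∞ (fun p => cv d ((1 / 2 : ℝ) • (Lo c.M c.a p - No p)))
      {p | c.R1 - 1 < rd p} := fun d p h => by
    obtain ⟨a, b⟩ := k.out (p := p) (by simp only [dd]; linarith [show c.R1 - 1 < rd p from h])
    exact ((cv d).contDiff.contDiffAt.comp p
      (((Lo_at k.1.sub a b).sub (No_at b)).const_smul _)).contDiffWithinAt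
  have e1 : ∀ᶠ p in G, c.R1 - 1 < p.2.2.1 ∧ p.2.2.2 ≠ 0 := (e.and o).mono fun p h => by
    refine ⟨?_, h.2.2⟩
    have := (abs_lt.1 h.1).1
    rw [dd, rd_pj h.2.1 h.2.2] at this
    linarith
  have z : 0 ≤ c.R1 - 1 := by linarith [k.2]
  have sm : ∀ φ : ℝ → ℝ, ContDiff ℝ ∞ φ → SmB G fun _ p => φ (rd p) := fun φ h =>
    k_smB le_rfl o fun p q => (h.contDiffAt.comp p (rd_at q)).contDiffWithinAt
  have sd : SmB G fun _ => dd c := sm (· - c.R1) (by fun_prop)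
  have rR := fun d => rs_pb f (k_smB z e1 (s d))
  have rD := rs_pb f sd
  have m : ∀ᶠ p in G, ca c (pj p.2) = 1 ∧ cl c (pj p.2) = dd c (pj p.2) / 2 ∧
      cn c (pj p.2) = -(dd c (pj p.2) / 2) := e.mono fun p h => by
    simpa only [ca, cl, cn, Pm.xi, k1, one_mul, dd] using al_mid (x := dd c (pj p.2)) h.le
  refine ⟨fun d => ⟨_, s d, fun p t => by simp only [Lo_sh, No_sh], rfl⟩, funext fun d => ?_, ?_, ?_, ?_,
    ?_⟩
  · have e0 : Rs (Hp.e0 (Sm G) d) fun _ => (cv d eT : ℂ) := by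
      fin_cases d
      exacts [rs_one, rs_zero, rs_zero, rs_zero]
    refine (rs_pb f (k_smB le_rfl o ((cv d).contDiff.comp_contDiffOn T.X_sm))).ext
      (e0.add (rD.mul (rR d))) (e.mono fun p h => ?_)
    simp only [Function.comp, T.X_tube (pj p.2) (by rw [k1]; simpa [dd] using h.le), k1, map_add,
      map_smul, smul_eq_mul, dd]
    push_cast
    ring
  · simp only [kf, L_pb f sd]
    refine (Rs.sum _ fun d => (rR d).mul (rs_pb f (sd.db d))).ext rs_one (o.mono fun p h => ?_)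
    have n : rd (pj p.2) ≠ 0 := by rw [rd_pj h.1 h.2]; exact h.1.ne'
    have l := P354YT.dr_lin (pj p.2)
    have a : fderiv ℝ (dd c) (pj p.2) ((1 / 2 : ℝ) • (Lo c.M c.a (pj p.2) - No (pj p.2))) = 1 := by
      rw [show dd c = fun p => rd p - c.R1 from rfl, fderiv_sub_const, P354XA.rd_fd n, l.map_smul,
        l.map_sub, P354XA.dr_Lo n, No, ← one_div, ← neg_div, P354YT.dr_rad n]
      norm_num
    rw [← sum_bs (_ • _), map_sum] at a
    simp only [map_smul (fderiv ℝ _ _), smul_eq_mul] at a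
    simp only [db]
    exact_mod_cast a
  · exact (rs_pb f (sm _ (al_cd.comp Pm.xi_cd))).ext rs_one (m.mono fun p h => by
      show ((ca c _ : ℝ) : ℂ) = 1
      rw [h.1, ofReal_one])
  · exact (rs_pb f (sm _ (bp_cd.comp Pm.xi_cd))).ext ((rs_alg _).mul rD) (m.mono fun p h => by
      show ((cl c _ : ℝ) : ℂ) = _
      rw [h.2.1]; push_cast; ring)
  · exact (rs_pb f (sm _ (bp_cd.comp Pm.xi_cd.neg))).ext ((rs_alg _).mul rD).neg
      (m.mono fun p h => by
        show ((cn c _ : ℝ) : ℂ) = _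
        rw [h.2.2]; push_cast; ring)

theorem ks_six {J : Type} {G : Filter (J × E6)} [Loc G] {r0 : ℝ} (c : Pm) (o : 0 ≤ r0) :
    ∀ h ∈ ({dd c, ca c, cl c, cn c, fun p => cp (dd c p), fun p => cp (-dd c p)} : Set (R4 → ℝ)),
      kf G h ∈ KS G r0 := by
  rintro _ (rfl | rfl | rfl | rfl | rfl | rfl)
  exacts [ks_rd o (φ := fun r => r - c.R1) (by fun_prop),
    ks_rd o (φ := fun r => al (c.xi r)) (al_cd.comp Pm.xi_cd),
    ks_rd o (φ := fun r => bp (c.xi r)) (bp_cd.comp Pm.xi_cd),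
    ks_rd o (φ := fun r => bp (-c.xi r)) (bp_cd.comp Pm.xi_cd.neg),
    ks_rd o (φ := fun r => cp (r - c.R1)) (cp_cd.comp (by fun_prop)),
    ks_rd o (φ := fun r => cp (-(r - c.R1))) (cp_cd.comp (by fun_prop))]

theorem rs_dd {J : Type} {G : Filter (J × E6)} [Loc G] (c : Pm) (p : Pos G) :
    Rs (kf G (dd c)) fun p => (dd c (pj p.2) : ℂ) :=
  rs_pb p.off (k_smB (h := dd c) le_rfl p fun _ q =>
    ((rd_at q).sub contDiffAt_const).contDiffWithinAt)

theorem ks_X {J : Type} {G : Filter (J × E6)} [Loc G] {r0 : ℝ} {c : Pm} (k : Ok2 c) (o : 0 ≤ r0)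
    (e : ∀ᶠ p in G, r0 < p.2.2.1 ∧ p.2.2.2 ≠ 0) (d : Fin 4) :
    vk G c.X d ∈ KS G r0 ∧ cj (vk G c.X d) = vk G c.X d := by
  have s : ContDiffOn ℝ ∞ (fun p => cv d (c.X p)) {p | r0 < rd p} :=
    (cv d).contDiff.comp_contDiffOn (k.1.tauI.X_sm.mono fun _ h => o.trans_lt h)
  refine ⟨⟨fun p => cv d (c.X p), s, fun p t => ?_, rfl⟩,
    cj_pb (e.mono fun _ h => ⟨(o.trans_lt h.1).ne', h.2⟩) (k_smB o e s)⟩
  simp only [Pm.X, P354YT.Xf, rd_sh, Lo_sh, No_sh]

theorem kf_dd {J : Type} {G : Filter (J × E6)} [Loc G] (c : Pm) (p : Pos G) :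
    kf G (dd c) = (hp G).z 1 - algebraMap ℂ _ c.R1 :=
  (rs_dd c p).ext ((rs_z 1).sub (rs_alg _)) (p.mono fun q h => by simp [dd, rd_pj h.1 h.2, zc])

theorem kcl : KCL := by
  intro c k k1 K r0 o e
  have p : Pos (nb ⊤ K) := e.mono fun _ h => ⟨o.trans_lt h.1, h.2⟩
  refine ⟨fun l _ _ u v => kc_ks K o e l u v, ks_X k o e, ks_six c o, kf_dd c p, fun q => ?_,
    tb_of k k1 p⟩
  exact ev_pz K (rs_dd c p) q

end Vale.Agent.P354FN
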