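import Vale.Agent.P354FN.Wt
import Vale.Agent.P354XF.Sym
import Vale.Agent.P354XF.Top

/-!
Functions which are causal for the frame of the solution are causal for the perturbed symbol.
-/

namespace Vale.Agent.P354FN

open Vale.Agent.P354XI Vale.Agent.P354XI.Ibp Vale.Agent.P354XT Vale.Agent.P354XF Finset

variable {A : Type*} [CommRing A] [Algebra ℂ A] {ι : Type} {A' : Type} [CommRing A'] [Algebra ℂ A']
  {b : Brg A ι} {Φ : Fld A'} {π : A →ₐ[ℂ] A'} {M a : ℝ} {x : Φ.B.Pt} {u v : A}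

/-- Real functions on the base. -/
structure Bs (b : Brg A ι) (Φ : Fld A') (π : A →ₐ[ℂ] A') (u : A) : Prop where
  re : b.T.G.c u = u
  vt : ∀ c, b.Y (vt c) u = 0
  V : ∑ i, Φ.w i * Φ.L i (π u) = 0

/-- The gradient of u is causal and u increases to the future. -/
structure Fut (b : Brg A ι) (Φ : Fld A') (π : A →ₐ[ℂ] A') (x : Φ.B.Pt) (u : A) : Prop where
  th : 0 ≤ Φ.B.val x (π (b.T.G.th u))
  tp : 0 ≤ Φ.B.val x (π (b.T.G.tp u))
  et : Φ.B.md x (π (b.T.G.et u)) ^ 2 ≤ Φ.B.val x (π (b.T.G.th u)) * Φ.B.val x (π (b.T.G.tp u))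

theorem gs_smul {de : Fin 5 → Fin 5 → A'} (t : ℝ) (ξ η : Fin 5 → ℝ) :
    Gs Φ M a de x (t • ξ) η = t * Gs Φ M a de x ξ η := by
  have e : t • ξ = t • ξ + (0 : ℝ) • ξ := by simp
  rw [Gs, Gs, Gq, Gq, Gq, Gq, e, qf_l, qf_r]; ring

theorem gs_comm {de : Fin 5 → Fin 5 → A'} (ξ η : Fin 5 → ℝ) :
    Gs Φ M a de x ξ η = Gs Φ M a de x η ξ := add_comm _ _

variable (h : Φ.Is)
include h

theorem gq_eq (de : Fin 5 → Fin 5 → A') (ξ η : Fin 5 → ℝ) : Gq (kw Φ M a) Φ.B de x ξ η =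
    qf (gR M a (Φ.pr x).2 (fun i => Φ.B.val x (Φ.w i)) + fun c e => Φ.B.val x (de c e)) ξ η := by
  have := val_gW (x := x) (kw_is h M a)
  rw [show Φ.B.val x (kw Φ M a).r = _ from h.val_r x] at this
  rw [Gq]
  congr 1
  funext c e
  exact (val_add _ _ _).trans (congrArg (· + _) (congrFun (congrFun this c) e))

theorem dT_neg {k c rm rI Rs Rb N ε : ℝ} {de : Fin 5 → Fin 5 → A'} (U : Up k rm Rb N M a Φ.f)
    (L : Lo c rm rI Rs Rb M a Φ.f) (r1 : rm ≤ (Φ.pr x).2) (r2 : (Φ.pr x).2 ≤ Rb)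
    (d : ∀ c e, Φ.B.md x (de c e) ≤ ε) (hε : 25 * ε < (c / (8 * k ^ 4)) ^ 4) :
    Gs Φ M a de x (dT Φ x) (dT Φ x) < 0 := by
  have zo := zone h U r1 r2
  have k1 := U.k1
  have c0 := L.c0
  rw [KW.Zone, show Φ.B.val x (kw Φ M a).r = _ from h.val_r x] at zo
  have z : Zn k M a _ fun i => Φ.B.val x (Φ.w i) :=
    ⟨U.k1, U.ha, U.hM, zo.1, zo.2, (kw_is h M a).val_one x⟩
  obtain ⟨f2, f3⟩ := L.h1 _ r1 r2
  have := z.tau_neg (by positivity) (fun c e => (abs_val_le x _).trans (d c e)) hε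
    (cone_rad z c0 (s := 1) (by norm_num) f2 (U.hF _ r1 r2) (by linarith))
    (neg_neg_of_pos (c0.trans_le f2))
  rw [Gs, gq_eq h]
  exact add_neg this this

variable (H : b.Hom Φ π M a) (hb : b.Is) (hc : ∀ f, Φ.B.c (π f) = π (b.T.G.c f))
  (rd : ∀ c e, Φ.B.Re (π (b.del c e))) (rs : Φ.B.Re (π b.smi))
include H hb hc rd rs

/-- The symbol in the frame. -/
theorem gs_symb (hu : Bs b Φ π u) (hv : Bs b Φ π v) :
    Gs Φ M a (fun c e => π (b.del c e)) x (gr Φ x (π u)) (gr Φ x (π v)) = -(Φ.B.val x (π b.smi) *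
      (Φ.B.val x (π (b.T.G.th u)) * Φ.B.val x (π (b.T.G.tp v)) +
        Φ.B.val x (π (b.T.G.tp u)) * Φ.B.val x (π (b.T.G.th v)) -
        2 * Φ.B.ip x (π (b.T.G.et u)) (π (b.T.G.et v)))) := by
  have re : ∀ {u}, b.T.G.c u = u → Φ.B.Re (π u) := fun e => (hc _).trans (congrArg π e)
  have X := fun {u} (e : Bs b Φ π u) c => (h.sk c).isRe (re e.re)
  have ep : ∀ {u}, Bs b Φ π u → π (b.T.G.ep u) = Φ.B.c (π (b.T.G.et u)) := fun e => by
    rw [hc, b.T.is.c_et, e.re]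
  have V : ∀ {u}, Bs b Φ π u → Φ.B.val x (Φ.w 0) * gr Φ x (π u) 2 +
      Φ.B.val x (Φ.w 1) * gr Φ x (π u) 3 + Φ.B.val x (Φ.w 2) * gr Φ x (π u) 4 = 0 := fun e => by
    have := congrArg (Φ.B.val x) e.V
    rwa [Fin.sum_univ_three, val_add, val_add, h.B.val_mul (h.wre _), h.B.val_mul (h.wre _),
      h.B.val_mul (h.wre _), val_zero] at this
  have e := congrArg (fun f => Φ.B.val x (π f)) (hb.symb hu.vt hv.vt)
  have s : ∀ c e, Φ.B.val x (π (b.del c e)) = Φ.B.val x (π (b.del e c)) := fun c e => by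
    rw [b.del_symm]
  simp only [Brg.gP, Brg.gZ, fr, Matrix.cons_val, map_mul, map_add, map_sub, map_neg,
    map_ofNat, H.X, H.r, H.x, H.M, H.a, ep hu, ep hv, add_mul, sub_mul, mul_assoc, one_mul,
    val_add, val_sub, val_neg, h.B.val_mul re_two, h.B.val_mul h.re_r,
    h.B.val_mul (h.B.re_rl _), h.B.val_mul (h.wre _), h.B.val_mul (rd _ _), h.B.val_mul rs,
    h.B.val_mul (X hu _), h.B.val_mul (re ((b.T.is.c_th u).trans (congrArg _ hu.re))),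
    h.B.val_mul (re ((b.T.is.c_tp u).trans (congrArg _ hu.re))), h.B.val_rl, h.val_r, val_two,
    mul_comm (Φ.B.c _), h.B.val_ip, Fin.sum_univ_five] at e
  rw [ip_comm x (π (b.T.G.et v))] at e
  simp only [Gs, gq_eq h, qf, gR, Fin.sum_univ_five, Pi.add_apply, Matrix.cons_val]
  have Vu := V hu
  have Vv := V hv
  simp only [gr] at Vu Vv ⊢
  simp only [s 1 0, s 2 0, s 3 0, s 4 0, s 2 1, s 3 1, s 4 1, s 3 2, s 4 2, s 4 3] at e ⊢
  linear_combination e - 2 * a * Φ.B.val x (Φ.w 2) * (Φ.B.val x (Φ.X 0 (π u)) * Vv +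
    Φ.B.val x (Φ.X 0 (π v)) * Vu)

variable (s0 : 0 < Φ.B.val x (π b.smi))
include s0

theorem gs_le (hu : Bs b Φ π u) (hv : Bs b Φ π v) (fu : Fut b Φ π x u) (fv : Fut b Φ π x v) :
    Gs Φ M a (fun c e => π (b.del c e)) x (gr Φ x (π u)) (gr Φ x (π v)) ≤ 0 := by
  rw [gs_symb h H hb hc rd rs hu hv, neg_nonpos]
  refine mul_nonneg s0.le (sub_nonneg.2 ?_)
  have e := (le_abs_self _).trans (abs_ip_le x (π (b.T.G.et u)) (π (b.T.G.et v)))
  have p := mul_nonneg fu.th fv.tp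
  have q := mul_nonneg fu.tp fv.th
  have m := mul_le_mul fu.et fv.et (sq_nonneg _) (mul_nonneg fu.th fu.tp)
  refine le_trans (by linarith) (abs_le_of_sq_le_sq' (a := 2 * (Φ.B.md x (π (b.T.G.et u)) *
    Φ.B.md x (π (b.T.G.et v)))) ?_ (add_nonneg p q)).2
  linarith [sq_nonneg (Φ.B.val x (π (b.T.G.th u)) * Φ.B.val x (π (b.T.G.tp v)) -
    Φ.B.val x (π (b.T.G.tp u)) * Φ.B.val x (π (b.T.G.th v)))]

theorem fut_of (hu : Bs b Φ π u) (p : 0 < Φ.B.val x (π (b.T.G.tp u)))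
    (n : Gs Φ M a (fun c e => π (b.del c e)) x (gr Φ x (π u)) (gr Φ x (π u)) < 0) :
    Fut b Φ π x u := by
  rw [gs_symb h H hb hc rd rs hu hu, neg_lt_zero, ip_self] at n
  have e := (pos_iff_pos_of_mul_pos n).1 s0
  refine ⟨?_, p.le, by linarith⟩
  by_contra c
  linarith [mul_neg_of_neg_of_pos (not_le.1 c) p, sq_nonneg (Φ.B.md x (π (b.T.G.et u)))]

/-- The two clauses on the lid. -/
theorem lid {k c rm rI Rs Rb N ε lam : ℝ} (U : Up k rm Rb N M a Φ.f) (L : Lo c rm rI Rs Rb M a Φ.f)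
    (r1 : rm ≤ (Φ.pr x).2) (r2 : (Φ.pr x).2 ≤ Rb) (d : ∀ c e, Φ.B.md x (π (b.del c e)) ≤ ε)
    (hε : 25 * ε < (c / (8 * k ^ 4)) ^ 4) (hu : Bs b Φ π u) (fu : Fut b Φ π x u) (hv : Bs b Φ π v)
    (gv : gr Φ x (π v) = dT Φ x) (p : 0 < Φ.B.val x (π (b.T.G.tp v))) {ph : A'} (l0 : 0 ≤ lam)
    (e : gr Φ x ph = (-lam) • gr Φ x (π u)) :
    Gs Φ M a (fun c e => π (b.del c e)) x (gr Φ x ph) (gr Φ x ph) ≤ 0 ∧
      0 ≤ Gs Φ M a (fun c e => π (b.del c e)) x (gr Φ x ph) (dT Φ x) := by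
  have fv := fut_of h H hb hc rd rs s0 hv p (by rw [gv]; exact dT_neg h U L r1 r2 d hε)
  rw [e, gs_smul, gs_comm, gs_smul, gs_smul, ← gv, ← mul_assoc]
  exact ⟨mul_nonpos_of_nonneg_of_nonpos (mul_self_nonneg _) (gs_le h H hb hc rd rs s0 hu hu fu fu),
    mul_nonneg_of_nonpos_of_nonpos (neg_nonpos.2 l0) (gs_le h H hb hc rd rs s0 hu hv fu fv)⟩

end Vale.Agent.P354FN
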