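import Vale.Agent.P354FN.Abs
import Vale.Agent.P354FN.Cone

/-!
The symbol of the Kerr wave operator and the multiplier as real matrices.
-/

namespace Vale.Agent.P354FN

open Vale.Agent.P354XI Finset

/-- The symbol. -/
def gR (M a r : ℝ) (w : Fin 3 → ℝ) : Fin 5 → Fin 5 → ℝ :=
  ![![a * a * (1 - w 2 * w 2), 2 * (r * r + a * a), 2 * a * -(w 2 * w 0), 2 * a * -(w 2 * w 1),
      2 * a * (1 - w 2 * w 2)], ![0, r * r - 2 * M * r + a * a, 0, 0, 0], ![0, 0, 1, 0, 0],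
    ![0, 0, 0, 1, 0], ![0, 2 * a, 0, 0, 1]]

/-- The multiplier. -/
noncomputable def yR (k a r : ℝ) : Fin 5 → ℝ :=
  ![(k ^ 2)⁻¹ * (r * r + a * a), -1, 0, 0, (k ^ 2)⁻¹ * a]

/-- The zone. -/
structure Zn (k M a r : ℝ) (w : Fin 3 → ℝ) : Prop where
  k1 : 1 ≤ k
  ha : |a| ≤ k
  hM : |M| ≤ k
  r1 : r ≤ k
  r0 : 1 ≤ k * r
  one : w 0 ^ 2 + w 1 ^ 2 + w 2 ^ 2 = 1

variable {k c M a r ε : ℝ} {w : Fin 3 → ℝ} {ξ η τ p : Fin 5 → ℝ} {de : Fin 5 → Fin 5 → ℝ}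

theorem qf_gR (one : w 0 ^ 2 + w 1 ^ 2 + w 2 ^ 2 = 1) (ξ p : Fin 5 → ℝ) :
    qf (gR M a r w) ξ p + qf (gR M a r w) p ξ = ξ 1 * cP M a r p + p 1 * cP M a r ξ +
      2 * (cm0 a w ξ * cm0 a w p + cm1 a w ξ * cm1 a w p + cm2 a w ξ * cm2 a w p) := by
  simp only [qf, gR, Fin.sum_univ_five, Matrix.cons_val, cP, cm0, cm1, cm2]
  linear_combination (-2 * a ^ 2 * w 2 ^ 2 * ξ 0 * p 0) * one

theorem qf_gR' (one : w 0 ^ 2 + w 1 ^ 2 + w 2 ^ 2 = 1) (p : Fin 5 → ℝ) : qf (gR M a r w) p p =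
    p 1 * cP M a r p + (cm0 a w p ^ 2 + cm1 a w p ^ 2 + cm2 a w p ^ 2) := by
  linarith [qf_gR (M := M) (a := a) (r := r) one p p]

theorem pr_yR (p : Fin 5 → ℝ) : pr (yR k a r) p = (k ^ 2)⁻¹ / 2 * cP M a r p +
    (1 + (k ^ 2)⁻¹ * (r ^ 2 - 2 * M * r + a ^ 2) / 2) * -p 1 := by
  simp only [pr, yR, Fin.sum_univ_five, Matrix.cons_val, cP]; ring

namespace Zn
variable (z : Zn k M a r w)
include z

theorem g0 : 0 < (k ^ 2)⁻¹ := by have := z.k1; positivity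

theorem c1 : (k ^ 2)⁻¹ / 2 ≤ 1 / 2 ∧ 1 / 2 ≤ 1 + (k ^ 2)⁻¹ * (r ^ 2 - 2 * M * r + a ^ 2) / 2 ∧
    1 + (k ^ 2)⁻¹ * (r ^ 2 - 2 * M * r + a ^ 2) / 2 ≤ 3 ∧ |r ^ 2 - 2 * M * r + a ^ 2| ≤ 4 * k ^ 2 := by
  have k1 := z.k1
  have r0 : 0 < r := by nlinarith [z.r0]
  have g2 : (k ^ 2)⁻¹ * k ^ 2 = 1 := inv_mul_cancel₀ (by positivity)
  have a2 : a ^ 2 ≤ k ^ 2 := by nlinarith [sq_abs a, abs_nonneg a, z.ha]
  have m2 : M ^ 2 ≤ k ^ 2 := by nlinarith [sq_abs M, abs_nonneg M, z.hM]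
  have lo : -k ^ 2 ≤ r ^ 2 - 2 * M * r + a ^ 2 := by nlinarith [sq_nonneg (r - M), sq_nonneg a]
  have hi : r ^ 2 - 2 * M * r + a ^ 2 ≤ 4 * k ^ 2 := by
    nlinarith [z.r1, sq_nonneg (r + M)]
  refine ⟨by linarith [inv_le_one_of_one_le₀ (one_le_pow₀ (n := 2) k1)], ?_, ?_,
    abs_le.2 ⟨by linarith [sq_nonneg k], hi⟩⟩
  · linarith [mul_le_mul_of_nonneg_left lo z.g0.le]
  · linarith [mul_le_mul_of_nonneg_left hi z.g0.le]

theorem sum_le (p : Fin 5 → ℝ) : ∑ i, p i ^ 2 ≤ 200 * k ^ 10 *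
    (p 1 ^ 2 + cP M a r p ^ 2 + (cm0 a w p ^ 2 + cm1 a w p ^ 2 + cm2 a w p ^ 2)) := by
  have k1 := z.k1
  have k2 : 1 ≤ k ^ 2 := one_le_pow₀ k1
  have a2 : a ^ 2 ≤ k ^ 2 := by nlinarith [sq_abs a, abs_nonneg a, z.ha]
  have D2 : (r ^ 2 - 2 * M * r + a ^ 2) ^ 2 ≤ (4 * k ^ 2) ^ 2 :=
    sq_le_sq' (abs_le.1 z.c1.2.2.2).1 (abs_le.1 z.c1.2.2.2).2
  have e : 2 * (r ^ 2 + a ^ 2 * w 2 ^ 2) * p 0 =
      cP M a r p - (r ^ 2 - 2 * M * r + a ^ 2) * p 1 - 2 * a * cm2 a w p := by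
    simp only [cP, cm2]; ring
  have e0 : p 2 = cm0 a w p + a * p 0 * (w 2 * w 0) := by simp only [cm0]; ring
  have e1 : p 3 = cm1 a w p + a * p 0 * (w 2 * w 1) := by simp only [cm1]; ring
  have e2 : p 4 = cm2 a w p - a * p 0 * (1 - w 2 * w 2) := by simp only [cm2]; ring
  have ee : (w 2 * w 0) ^ 2 + (w 2 * w 1) ^ 2 + (1 - w 2 * w 2) ^ 2 = 1 - w 2 ^ 2 := by
    linear_combination (w 2 ^ 2) * z.one
  rw [Fin.sum_univ_five, e0, e1, e2]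
  generalize cP M a r p = l at *
  generalize cm0 a w p = A0 at *
  generalize cm1 a w p = A1 at *
  generalize cm2 a w p = A2 at *
  generalize r ^ 2 - 2 * M * r + a ^ 2 = D at *
  have s : 1 ≤ k ^ 2 * (r ^ 2 + a ^ 2 * w 2 ^ 2) := by
    nlinarith [z.r0, mul_nonneg (sq_nonneg k) (mul_nonneg (sq_nonneg a) (sq_nonneg (w 2)))]
  have s2 := mul_le_mul_of_nonneg_right (one_le_pow₀ (n := 2) s) (sq_nonneg (p 0))
  have t1 : (l - D * p 1 - 2 * a * A2) ^ 2 ≤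
      48 * k ^ 4 * (p 1 ^ 2 + l ^ 2 + (A0 ^ 2 + A1 ^ 2 + A2 ^ 2)) := by
    have k4 : k ^ 2 ≤ k ^ 4 := pow_le_pow_right₀ k1 (by norm_num)
    linarith [sq_nonneg (l + D * p 1), sq_nonneg (l + 2 * a * A2), sq_nonneg (D * p 1 - 2 * a * A2),
      mul_le_mul_of_nonneg_right D2 (sq_nonneg (p 1)), sq_nonneg l,
      mul_le_mul_of_nonneg_right (a2.trans k4) (sq_nonneg A2),
      mul_le_mul_of_nonneg_right (k2.trans k4) (sq_nonneg l),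
      mul_nonneg (show 0 ≤ k ^ 4 by positivity) (show 0 ≤ A0 ^ 2 + A1 ^ 2 by positivity),
      mul_nonneg (show 0 ≤ k ^ 4 by positivity) (sq_nonneg A2)]
  rw [← e] at t1
  have t2 := mul_le_mul_of_nonneg_left t1 (show 0 ≤ k ^ 4 by positivity)
  have E0 : 0 ≤ p 1 ^ 2 + l ^ 2 + (A0 ^ 2 + A1 ^ 2 + A2 ^ 2) := by positivity
  have t3 : p 0 ^ 2 ≤ 12 * k ^ 8 * (p 1 ^ 2 + l ^ 2 + (A0 ^ 2 + A1 ^ 2 + A2 ^ 2)) := by linarith
  have t4 := mul_le_mul_of_nonneg_left t3 (sq_nonneg k)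
  have t5 := mul_le_mul_of_nonneg_right k2 (sq_nonneg (p 0))
  have t6 := mul_le_mul_of_nonneg_right a2 (sq_nonneg (p 0))
  have t7 := mul_le_mul_of_nonneg_right (one_le_pow₀ (n := 10) k1) E0
  have t8 := congrArg (· * (a * p 0) ^ 2) ee
  have t9 := mul_nonneg (sq_nonneg (w 2)) (sq_nonneg (a * p 0))
  linarith [sq_nonneg (A0 - a * p 0 * (w 2 * w 0)), sq_nonneg (A1 - a * p 0 * (w 2 * w 1)),
    sq_nonneg (A2 + a * p 0 * (1 - w 2 * w 2)), sq_nonneg l, sq_nonneg (p 1),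
    mul_nonneg (show 0 ≤ k ^ 10 by positivity) E0]

omit z in
theorem abs_de (d : ∀ i j, |de i j| ≤ ε) (p : Fin 5 → ℝ) : |qf de p p| ≤ 5 * ε * ∑ i, p i ^ 2 := by
  have := mul_le_mul_of_nonneg_left (sq_abs_sum p) ((abs_nonneg _).trans (d 0 0))
  simp only [Fintype.card_fin, Nat.cast_ofNat] at this
  linarith [abs_qf (ξ := p) (p := p) d]

theorem ker (d : ∀ i j, |de i j| ≤ ε) (hε : 14000 * k ^ 12 * ε ≤ 1) (p : Fin 5 → ℝ)
    (e : pr (yR k a r) p = 0) :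
    (2800 * k ^ 12)⁻¹ * ∑ i, p i ^ 2 ≤ qf (gR M a r w + de) p p := by
  have k1 := z.k1
  have k2 : 1 ≤ k ^ 2 := one_le_pow₀ k1
  obtain ⟨-, c1, c2, -⟩ := z.c1
  have s := z.sum_le p
  have b := (abs_le.1 (abs_de d p)).1
  have S0 : 0 ≤ ∑ i, p i ^ 2 := sum_nonneg fun _ _ => sq_nonneg _
  rw [pr_yR (M := M)] at e
  rw [qf_add, qf_gR' z.one, inv_mul_le_iff₀ (by positivity)]
  generalize 1 + (k ^ 2)⁻¹ * (r ^ 2 - 2 * M * r + a ^ 2) / 2 = c at *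
  have e1 : cP M a r p = 2 * c * k ^ 2 * p 1 := by field_simp at e; linarith
  have z0 : 0 ≤ cm0 a w p ^ 2 + cm1 a w p ^ 2 + cm2 a w p ^ 2 := by positivity
  generalize cm0 a w p ^ 2 + cm1 a w p ^ 2 + cm2 a w p ^ 2 = Z at *
  rw [e1] at s ⊢
  have c3 : 1 ≤ 2 * c * k ^ 2 := by nlinarith
  have u1 := mul_le_mul_of_nonneg_right c3 (sq_nonneg (p 1))
  have u0 : 0 ≤ 2 * c * k ^ 2 * p 1 ^ 2 := by positivity
  have u2 := mul_le_mul_of_nonneg_right (mul_le_mul_of_nonneg_right c2 (sq_nonneg k)) u0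
  have u3 := mul_le_mul_of_nonneg_right k2 u0
  have u4 := mul_le_mul_of_nonneg_right k2 z0
  have u5 : p 1 ^ 2 + (2 * c * k ^ 2 * p 1) ^ 2 + Z ≤
      7 * k ^ 2 * (p 1 * (2 * c * k ^ 2 * p 1) + Z) := by linarith
  have u6 := mul_le_mul_of_nonneg_left u5 (show 0 ≤ 200 * k ^ 10 by positivity)
  have u7 := mul_le_mul_of_nonneg_left b (show 0 ≤ 2800 * k ^ 12 by positivity)
  have u8 := mul_le_mul_of_nonneg_right hε S0
  linarith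

theorem pr_ge (c0 : 0 < c) (h : Cone c M a r w ξ) : -ξ 1 / 2 ≤ pr (yR k a r) ξ := by
  rw [pr_yR (M := M)]
  linarith [mul_nonneg z.g0.le (h.p0 c0), mul_le_mul_of_nonneg_right z.c1.2.1 (h.q0 c0)]

theorem cur_ge (c0 : 0 < c) (c1 : c ≤ 1) (h : Cone c M a r w ξ) (p : Fin 5 → ℝ) :
    c ^ 2 / (800 * k ^ 12) * -ξ 1 * ∑ i, p i ^ 2 ≤ cur (gR M a r w) (yR k a r) ξ p := by
  have k1 := z.k1
  have := h.gd c0 c1 (μ := (k ^ 2)⁻¹ / 2) (by positivity) (z.c1.1.trans z.c1.2.1) le_rfl (p 1)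
    (cP M a r p) (cm0 a w p) (cm1 a w p) (cm2 a w p)
  refine le_trans ?_ (this.trans (le_of_eq ?_))
  · refine (mul_le_mul_of_nonneg_left (z.sum_le p) (mul_nonneg (by positivity) (h.q0 c0))).trans
      (le_of_eq ?_)
    field_simp
    ring
  · rw [cur, qf_gR z.one, qf_gR' z.one, pr_yR (M := M), pr_yR (M := M), gd]; ring

theorem tau_neg (c0 : 0 < c) (d : ∀ i j, |de i j| ≤ ε) (hε : 25 * ε < c ^ 4)
    (h : Cone c M a r w τ) (t : τ 1 < 0) : qf (gR M a r w + de) τ τ < 0 := by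
  have b := (abs_le.1 (abs_de d τ)).2
  have ε0 := (abs_nonneg _).trans (d 0 0)
  have s : c ^ 2 * ∑ i, τ i ^ 2 ≤ 5 * τ 1 ^ 2 := by
    have := sum_le_sum fun i (_ : i ∈ univ) => pow_le_pow_left₀ (by positivity) (h.le i) 2
    simpa [mul_pow, mul_sum] using this
  have l := mul_le_mul_of_nonneg_left h.lo (mul_pos c0 (neg_pos.2 t)).le
  rw [qf_add, qf_gR' z.one]
  refine lt_of_mul_lt_mul_left ?_ (sq_nonneg c)
  have q : 0 < τ 1 ^ 2 := by nlinarith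
  linarith [mul_le_mul_of_nonneg_left (add_le_add h.an b) (sq_nonneg c),
    mul_le_mul_of_nonneg_left s ε0, mul_le_mul_of_nonneg_left l (sq_nonneg c),
    mul_lt_mul_of_pos_right hε q]

/-- The positivity of the current. -/
theorem pos (c0 : 0 < c) (c1 : c ≤ 1) (d : ∀ i j, |de i j| ≤ ε) (hε : 10 ^ 6 * k ^ 12 * ε ≤ c ^ 4)
    (hg : ∀ i j, |(gR M a r w + de) i j| ≤ 25 * k ^ 2) (hy : ∀ i, |yR k a r i| ≤ 8)
    (h : Cone c M a r w ξ) (ht : Cone c M a r w τ) (t : τ 1 < 0)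
    (n : qf (gR M a r w + de) η η ≤ 0)
    (f : qf (gR M a r w + de) η τ + qf (gR M a r w + de) τ η ≤ 0) {ω : Fin 5 → ℝ} {b : ℝ}
    (hb : ∀ i, |ω i + ξ i + η i| ≤ b) :
    (∀ p, (c ^ 2 / (1600 * k ^ 12) * -ξ 1 - 15000 * k ^ 2 * b) * ∑ i, p i ^ 2 ≤
      -cur (gR M a r w + de) (yR k a r) ω p) ∧
    c ^ 2 / (1600 * k ^ 12) * -ξ 1 - 15000 * k ^ 2 * b ≤ -pr (yR k a r) ω := by
  have k1 := z.k1
  have k2 : 1 ≤ k ^ 2 := one_le_pow₀ k1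
  have k12 : 1 ≤ k ^ 12 := one_le_pow₀ k1
  have ε0 := (abs_nonneg _).trans (d 0 0)
  have b0 := (abs_nonneg _).trans (hb 0)
  have c4 : c ^ 4 ≤ 1 := pow_le_one₀ c0.le c1
  have c3 : c ^ 4 ≤ c ^ 3 := pow_le_pow_of_le_one c0.le c1 (by norm_num)
  have c5 : 0 < c ^ 4 := by positivity
  have ε1 := mul_le_mul_of_nonneg_right k12 ε0
  have kr := z.ker d (by linarith [mul_nonneg (zero_le_one.trans k12) ε0])
  have f0 := fut (fun p e => (mul_nonneg (by positivity) (sum_nonneg fun _ _ => sq_nonneg _)).trans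
    (kr p e)) n (z.tau_neg c0 d (by linarith) ht t) (by linarith [z.pr_ge c0 ht]) f
  have e : ω = (1 : ℝ) • (ω + ξ + η) + (-1 : ℝ) • ((1 : ℝ) • ξ + (1 : ℝ) • η) := by
    simp only [one_smul, neg_smul]; abel
  have q := h.q0 c0
  have γ : c ^ 2 / (1600 * k ^ 12) ≤ 1 / 2 :=
    (div_le_iff₀ (by positivity)).2 (by nlinarith [pow_le_one₀ (n := 2) c0.le c1])
  refine ⟨fun p => ?_, ?_⟩
  · have S0 : 0 ≤ ∑ i, p i ^ 2 := sum_nonneg fun _ _ => sq_nonneg _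
    have a1 := z.cur_ge c0 c1 h p
    have a2 := (abs_le.1 (abs_cur (p := p) ε0 (by norm_num) (div_nonneg q c0.le) d hy
      fun i => (le_div_iff₀' c0).2 (h.le i))).1
    have a3 := dec (p := p) (by positivity) kr n f0
    have a4 := (abs_le.1 (abs_cur (ξ := ω + ξ + η) (p := p) (by positivity) (by norm_num) b0 hg hy
      hb)).2
    have a5 : 600 * ε / c ≤ c ^ 2 / (1600 * k ^ 12) := by
      rw [div_le_div_iff₀ c0 (by positivity)]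
      linarith [mul_nonneg (zero_le_one.trans k12) ε0]
    have a6 := mul_le_mul_of_nonneg_right (mul_le_mul_of_nonneg_right a5 q) S0
    simp only [Fintype.card_fin, Nat.cast_ofNat] at a2 a4
    rw [e, cur_lin, cur_lin, cur_add (ξ := ξ)]
    have : c ^ 2 / (800 * k ^ 12) = 2 * (c ^ 2 / (1600 * k ^ 12)) := by ring
    rw [this] at a1
    generalize c ^ 2 / (1600 * k ^ 12) = γ at *
    have : 3 * 5 ^ 2 * (ε * 8 * (-ξ 1 / c)) = 600 * ε / c * -ξ 1 := by ring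
    rw [this] at a2
    linarith
  · have a1 := (abs_le.1 ((abs_pr (ξ := ω + ξ + η) hy).trans (mul_le_mul_of_nonneg_left
      (sum_le_sum fun i _ => hb i) (by norm_num)))).2
    simp only [sum_const, card_univ, Fintype.card_fin, nsmul_eq_mul, Nat.cast_ofNat] at a1
    rw [e, pr_lin, pr_lin]
    linarith [z.pr_ge c0 h, mul_le_mul_of_nonneg_right γ q, mul_le_mul_of_nonneg_right k2 b0]

end Zn

end Vale.Agent.P354FN
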