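import Vale.Agent.P354FN.Fin
import Vale.Agent.P354XI.MRe

/-!
The estimate in finite time for families, with the weight ph psi (t, r), where - d ph is causal.
-/

open scoped ContDiff

namespace Vale.Agent.P354FN

open Vale.Agent.P354XG (Der D_mul)
open Vale.Agent.P354XI Vale.Agent.P354XI.Ibp Vale.Agent.P354YF Vale.Agent.P354XT Finset
open Vale.Agent.P354BF (De)

theorem cone_rad {k c M a r s q : ℝ} {w : Fin 3 → ℝ} (z : Zn k M a r w) (c0 : 0 < c)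
    (s1 : |s| ≤ 1) (q0 : c ≤ q) (q1 : q ≤ k)
    (e : c ≤ (2 * (r ^ 2 + a ^ 2) * s - De M a r * q) * q - a ^ 2 * s ^ 2) :
    Cone (c / (8 * k ^ 4)) M a r w ![s, -q, 0, 0, 0] := by
  have k1 := z.k1
  have k4 : 1 ≤ k ^ 4 := one_le_pow₀ k1
  have c1 : c / (8 * k ^ 4) ≤ c := div_le_self c0.le (by linarith)
  have c2 : 0 < c / (8 * k ^ 4) := by positivity
  have c3 : c / (8 * k ^ 4) * (8 * k ^ 4) = c := by field_simp
  have r0 : 0 < r := by nlinarith [z.r0]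
  have W : r ^ 2 + a ^ 2 ≤ 2 * k ^ 2 := by nlinarith [z.r1, sq_abs a, abs_nonneg a, z.ha]
  have D : |De M a r * q| ≤ 4 * k ^ 2 * k := (abs_mul _ _).le.trans (mul_le_mul z.c1.2.2.2
    ((abs_of_pos (c0.trans_le q0)).le.trans q1) (abs_nonneg _) (by positivity))
  have P : cP M a r ![s, -q, 0, 0, 0] = 2 * (r ^ 2 + a ^ 2) * s - De M a r * q := by
    simp only [cP, De, Matrix.cons_val]; ring
  have k3 : k ^ 2 ≤ k ^ 3 := pow_le_pow_right₀ k1 (by norm_num)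
  have P1 : 2 * (r ^ 2 + a ^ 2) * s - De M a r * q ≤ 8 * k ^ 3 := by
    linarith [(abs_le.1 D).1, mul_le_mul_of_nonneg_left (abs_le.1 s1).2
      (show 0 ≤ r ^ 2 + a ^ 2 by positivity)]
  have m : cm0 a w ![s, -q, 0, 0, 0] ^ 2 + cm1 a w ![s, -q, 0, 0, 0] ^ 2 +
      cm2 a w ![s, -q, 0, 0, 0] ^ 2 = a ^ 2 * s ^ 2 - (a * s * w 2) ^ 2 := by
    simp only [cm0, cm1, cm2, Matrix.cons_val]
    linear_combination (a * s * w 2) ^ 2 * z.one
  have as := mul_nonneg (sq_nonneg a) (sq_nonneg s)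
  generalize c / (8 * k ^ 4) = d at *
  have q2 : 0 < q := c0.trans_le q0
  have d1 : d ≤ 1 := by nlinarith
  refine ⟨fun i => ?_, ?_, ?_⟩
  · fin_cases i <;> simp [q2.le, abs_of_pos q2]
    · nlinarith [abs_nonneg s]
    · nlinarith
  · rw [P]
    refine le_of_mul_le_mul_right ?_ q2
    have : q * q ≤ 8 * k ^ 4 := by nlinarith [pow_le_pow_right₀ k1 (show 2 ≤ 4 by norm_num)]
    simp only [Matrix.cons_val, neg_neg]
    nlinarith
  · rw [P, m]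
    simp only [Matrix.cons_val, neg_neg]
    have := mul_le_mul q1 P1 ((pos_iff_pos_of_mul_pos (show 0 < _ * q by linarith)).2 q2).le
      (by linarith)
    nlinarith [sq_nonneg (a * s * w 2)]

variable {A : Type} [CommRing A] [Algebra ℂ A]

/-- The gradient of a real element, the gradient of the time, the density of a family. -/
def gr (Φ : Fld A) (x : Φ.B.Pt) (u : A) (a : Fin 5) : ℝ := Φ.B.val x (Φ.X a u)
def dT (Φ : Fld A) (x : Φ.B.Pt) : Fin 5 → ℝ := ![1, -Φ.f (Φ.pr x).2, 0, 0, 0]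
def lo (Φ : Fld A) {ι : Type} [Fintype ι] (f : ι → List (Fin 5) → A) (m : ℕ) : A :=
  ∑ i, Φ.lv (m + 1) (f i)

/-- The symmetrized symbol. -/
noncomputable def Gs (Φ : Fld A) (M a : ℝ) (de : Fin 5 → Fin 5 → A) (x : Φ.B.Pt)
    (ξ η : Fin 5 → ℝ) : ℝ := Gq (kw Φ M a) Φ.B de x ξ η + Gq (kw Φ M a) Φ.B de x η ξ

/-- The family at a point. -/
structure Hn (Φ : Fld A) (M a δ Cf : ℝ) (de : Fin 5 → Fin 5 → A) {ι : Type} [Fintype ι]
    (s : ι → ℝ) (f : ι → List (Fin 5) → A) (m : ℕ) (x : Φ.B.Pt) : Prop where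
  hon : ∀ i b (J : List (Fin 5)), J.length ≤ m →
    Φ.B.md x (Φ.X b (f i J) - f i (b :: J)) ^ 2 ≤ δ * Φ.B.val x (lo Φ f m)
  eqA : ∀ i (J : List (Fin 5)), J.length ≤ m →
    Φ.B.md x (Φ.P (s i) (s i) M a (f i J) + Φ.Q de (f i J)) ^ 2 ≤ Cf * Φ.B.val x (lo Φ f m)

/-- The hypotheses at a point. -/
structure Pt (Φ : Fld A) (M a rm Rb ε δ Cf : ℝ) (ph : A) (de : Fin 5 → Fin 5 → A) {ι : Type}
    [Fintype ι] (s : ι → ℝ) (f : ι → List (Fin 5) → A) (m : ℕ) (x : Φ.B.Pt) : Prop where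
  r1 : rm ≤ (Φ.pr x).2
  r2 : (Φ.pr x).2 ≤ Rb
  de1 : ∀ a b, J1 Φ.B Φ.X x (de a b) ε
  c1 : Gs Φ M a de x (gr Φ x ph) (gr Φ x ph) ≤ 0
  c2 : 0 ≤ Gs Φ M a de x (gr Φ x ph) (dT Φ x)
  hn : Hn Φ M a δ Cf de s f m x

variable {Φ : Fld A} {k c rm rI Rs Rb N M a κ ε δ Cf : ℝ} {S : Set (ℝ × ℝ)} {ψ G bd : ℝ × ℝ → ℝ}
  {ph : A} {de : Fin 5 → Fin 5 → A} {ι : Type} [Fintype ι] {s : ι → ℝ} {f : ι → List (Fin 5) → A}
  {m : ℕ} {x : Φ.B.Pt} (h : Φ.Is)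
include h

theorem gr_mul (rp : Φ.B.Re ph) (hψ : ContDiff ℝ ∞ ψ) (b : Fin 5) : gr Φ x (ph * Φ.fn ψ) b =
    Φ.B.val x ph * ![dt ψ (Φ.pr x), dr ψ (Φ.pr x) - Φ.f (Φ.pr x).2 * dt ψ (Φ.pr x), 0, 0, 0] b +
      ψ (Φ.pr x) * gr Φ x ph b := by
  rw [gr, D_mul, val_add, h.B.val_mul rp, h.B.val_mul (h.re ψ hψ), val_fn h hψ, gr]
  congr 2
  have := fun i => (congrArg (Φ.B.val x) (h.Lf ψ hψ i)).trans (val_zero x)
  fin_cases b
  exacts [val_T h hψ x, val_R h hψ x, this 0, this 1, this 2]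

theorem at_of (U : Up k rm Rb N M a Φ.f) (L : Lo c rm rI Rs Rb M a Φ.f) (c1 : c ≤ 1)
    (D : Dec S rI Rs ψ G bd) (hx : Φ.pr x ∈ S) (hκ : κ * ψ (Φ.pr x) ≤ G (Φ.pr x))
    (rp : Φ.B.Re ph) (p0 : 0 ≤ Φ.B.val x ph) (H : Pt Φ M a rm Rb ε δ Cf ph de s f m x) :
    At (kw Φ M a) Φ.B k (c / (8 * k ^ 4)) (c * κ) ε (ph * Φ.fn ψ)
      (rl A (k + 1) * (ph * Φ.fn bd)) de x := by
  have K := kw_is h M a
  have zo := zone h U H.r1 H.r2
  have z : Zn k M a _ fun i => Φ.B.val x ((kw Φ M a).w i) :=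
    ⟨U.k1, U.ha, U.hM, zo.1, zo.2, K.val_one x⟩
  have c0 := L.c0
  have k1 := U.k1
  have d0 : 0 < c / (8 * k ^ 4) := by positivity
  have d1 : c / (8 * k ^ 4) ≤ 1 :=
    (div_le_self c0.le (by linarith [one_le_pow₀ (n := 4) k1])).trans c1
  have vr : Φ.B.val x (kw Φ M a).r = (Φ.pr x).2 := h.val_r x
  obtain ⟨al, be, ga, a0, b0, g0, eG, hb, hg, e1, e2⟩ := D.dec _ hx
  obtain ⟨f2, f3⟩ := L.h1 _ H.r1 H.r2
  have f1 := U.hF _ H.r1 H.r2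
  have t1 := cone_rad z c0 (s := 1) (by norm_num) f2 f1 (by rw [vr]; linarith)
  have t2 : Cn (kw Φ M a) Φ.B (c / (8 * k ^ 4)) x (be • ![0, -1, 0, 0, 0]) := by
    by_cases e : be = 0
    · rw [e, zero_smul]; exact Cone.zero
    · exact (cone_rad z c0 (s := 0) (by norm_num) c1 k1
        (by rw [vr]; linarith [L.h2 _ H.r1 (hb e)])).smul b0
  have t3 : Cn (kw Φ M a) Φ.B (c / (8 * k ^ 4)) x
      (ga • ![1, -(Φ.f (Φ.pr x).2 - 1), 0, 0, 0]) ∧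
      ga * c ≤ ga * (Φ.f (Φ.pr x).2 - 1) := by
    by_cases e : ga = 0
    · rw [e, zero_smul, zero_mul, zero_mul]; exact ⟨Cone.zero, le_rfl⟩
    · obtain ⟨u, v⟩ := L.h3 _ (hg e) H.r2
      exact ⟨(cone_rad z c0 (s := 1) (by norm_num) u (by linarith)
        (by rw [vr]; linarith)).smul g0, mul_le_mul_of_nonneg_left u g0⟩
  have ψ0 := D.pos _ hx
  have sc : ∀ (t : ℝ) (ξ η : Fin 5 → ℝ), Gs Φ M a de x (t • ξ) η = t * Gs Φ M a de x ξ η :=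
    fun t ξ η => by
      have e : t • ξ = t • ξ + (0 : ℝ) • ξ := by simp
      rw [Gs, Gs, Gq, Gq, Gq, Gq, e, qf_l, qf_r]; ring
  have sy : ∀ ξ η, Gs Φ M a de x ξ η = Gs Φ M a de x η ξ := fun ξ η => add_comm _ _
  refine ⟨zo, H.de1, Φ.B.val x ph • (al • dT Φ x + be • ![0, -1, 0, 0, 0] +
    ga • ![1, -(Φ.f (Φ.pr x).2 - 1), 0, 0, 0]), (-ψ (Φ.pr x)) • gr Φ x ph, dT Φ x,
    ((((t1.smul a0).add t2 d0 d1).add t3.1 d0 d1).smul p0 :), ?_, t1, neg_neg_of_pos (c0.trans_le f2),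
    ?_, ?_, fun b => ?_⟩
  · rw [h.B.val_mul rp, val_fn h D.s1]
    have := mul_le_mul_of_nonneg_left (show c * (κ * ψ (Φ.pr x)) ≤ al * Φ.f (Φ.pr x).2 + be +
      ga * (Φ.f (Φ.pr x).2 - 1) by
        linarith [mul_le_mul_of_nonneg_left (hκ.trans eG.le) c0.le, t3.2,
          mul_le_mul_of_nonneg_left f2 a0, mul_le_mul_of_nonneg_left c1 b0]) p0
    simp only [dT, Pi.smul_apply, Pi.add_apply, smul_eq_mul, Matrix.cons_val]
    linarith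
  · have := mul_nonpos_of_nonneg_of_nonpos (mul_self_nonneg (-ψ (Φ.pr x))) H.c1
    rw [mul_assoc, ← sc, sy, ← sc, Gs] at this
    linarith
  · have := mul_nonpos_of_nonpos_of_nonneg (neg_nonpos.2 ψ0) H.c2
    rwa [← sc] at this
  · have g := gr_mul h (x := x) rp D.s1 b
    rw [show Φ.B.val x (lx (kw Φ M a) b _) = _ from g, h.B.val_mul (h.B.re_rl _), h.B.val_rl,
      h.B.val_mul rp, val_fn h D.s3]
    have b0 := (abs_nonneg _).trans e1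
    have n := mul_nonneg p0 b0
    have u : ∀ {y t : ℝ}, |y| ≤ (k + 1) * bd (Φ.pr x) → t = Φ.B.val x ph * y →
        |t| ≤ (k + 1) * (Φ.B.val x ph * bd (Φ.pr x)) := fun e1 e2 => by
      rw [e2, abs_mul, abs_of_nonneg p0]
      linarith [mul_le_mul_of_nonneg_left e1 p0]
    have e3 := mul_le_mul f1 e1 (abs_nonneg _) (by linarith)
    rw [← abs_of_pos (c0.trans_le f2), ← abs_mul] at e3
    have z0 : |(0 : ℝ)| ≤ (k + 1) * bd (Φ.pr x) := by rw [abs_zero]; positivity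
    fin_cases b
    · exact u (e1.trans (by nlinarith)) (by simp [dT, dt]; ring)
    · exact u (((abs_sub _ _).trans (add_le_add e2 e3)).trans (by linarith))
        (by simp [dT, dt, dr]; ring)
    all_goals exact u z0 (by simp [dT])

theorem val_lo : Φ.B.val x (lo Φ f m) = ∑ i, ∑ J ∈ words (m + 1), Φ.B.md x (f i J) ^ 2 := by
  simp only [lo, val_sum, h.val_lv]

theorem le_lo (i : ι) {J : List (Fin 5)} (e : J.length ≤ m + 1) :
    Φ.B.md x (f i J) ^ 2 ≤ Φ.B.val x (lo Φ f m) := by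
  rw [lo, val_sum]
  exact (h.le_lv x (f i) e).trans (single_le_sum (fun j _ => h.lv_nonneg x _ (f j)) (mem_univ i))

theorem cmp {n : ℝ} (hn : Fintype.card ι * ((words (m + 1)).card : ℝ) ≤ n) (n1 : 1 ≤ n)
    (hδ : 4 * n * δ ≤ 1) (H : Hn Φ M a δ Cf de s f m x) :
    Φ.B.val x (lo Φ f m) ≤ 4 * n * ∑ j ∈ univ ×ˢ words m, qq Φ.B Φ.X x 1 (f j.1 j.2) ∧
    ∑ j ∈ univ ×ˢ words m, qq Φ.B Φ.X x 1 (f j.1 j.2) ≤ 21 * n * Φ.B.val x (lo Φ f m) := by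
  have l0 : 0 ≤ Φ.B.val x (lo Φ f m) := by rw [val_lo h]; positivity
  have Q0 : 0 ≤ ∑ j ∈ univ ×ˢ words m, qq Φ.B Φ.X x 1 (f j.1 j.2) :=
    sum_nonneg fun _ _ => qq_nonneg _ _
  have t : ∀ u v : A, Φ.B.md x u ^ 2 ≤ 2 * Φ.B.md x v ^ 2 + 2 * Φ.B.md x (u - v) ^ 2 := fun u v =>
    sq2 (md_nonneg _ _) (by simpa using md_add x v (u - v))
  have q : ∀ i J, J.length ≤ m → qq Φ.B Φ.X x 1 (f i J) ≤
      ∑ j ∈ univ ×ˢ words m, qq Φ.B Φ.X x 1 (f j.1 j.2) := fun i J e =>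
    single_le_sum (f := fun j : ι × List (Fin 5) => qq Φ.B Φ.X x 1 (f j.1 j.2))
      (fun _ _ => qq_nonneg _ _) (a := (i, J)) (by simp [mem_words, e])
  have d : δ * Φ.B.val x (lo Φ f m) ≤ (4 * n)⁻¹ * Φ.B.val x (lo Φ f m) :=
    mul_le_mul_of_nonneg_right ((le_inv_mul_iff₀ (by positivity)).2 hδ |>.trans (mul_one _).le) l0
  have i0 : 0 ≤ (4 * n)⁻¹ * Φ.B.val x (lo Φ f m) := by positivity
  constructor
  · have := sum_le_sum fun i (_ : i ∈ univ) => sum_le_card_nsmul (words (m + 1))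
      (fun J => Φ.B.md x (f i J) ^ 2) (2 * ∑ j ∈ univ ×ˢ words m, qq Φ.B Φ.X x 1 (f j.1 j.2) +
        2 * ((4 * n)⁻¹ * Φ.B.val x (lo Φ f m))) fun J e => by
      rcases J with _ | ⟨b, J⟩
      · linarith [(md_le_qq 1 _).trans (q i [] (Nat.zero_le _))]
      · have e : J.length ≤ m := by simpa [mem_words] using e
        have := H.hon i b J e
        rw [← md_neg, neg_sub] at this
        linarith [t (f i (b :: J)) (Φ.X b (f i J)), (md_X x b _).trans (q i J e)]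
    rw [← val_lo h, sum_const, card_univ, nsmul_eq_mul, nsmul_eq_mul, ← mul_assoc] at this
    have e := this.trans (mul_le_mul_of_nonneg_right hn (by positivity))
    have : n * (4 * n)⁻¹ = 1 / 4 := by field_simp
    rw [mul_add, mul_left_comm n 2 (_ * _), ← mul_assoc n (4 * n)⁻¹, this] at e
    linarith
  · have i1 : (4 * n)⁻¹ * Φ.B.val x (lo Φ f m) ≤ Φ.B.val x (lo Φ f m) :=
      mul_le_of_le_one_left l0 (inv_le_one_of_one_le₀ (by linarith))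
    refine (sum_le_card_nsmul _ _ (21 * Φ.B.val x (lo Φ f m)) fun j e => ?_).trans ?_
    · have e : j.2.length ≤ m := by simpa [mem_words] using e
      have := sum_le_card_nsmul univ (fun b => qq Φ.B Φ.X x 0 (Φ.X b (f j.1 j.2)))
        (4 * Φ.B.val x (lo Φ f m)) fun b _ => by
          linarith [t (Φ.X b (f j.1 j.2)) (f j.1 (b :: j.2)), H.hon j.1 b j.2 e,
            le_lo h (x := x) (f := f) j.1 (J := b :: j.2) (Nat.succ_le_succ e),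
            show qq Φ.B Φ.X x 0 (Φ.X b (f j.1 j.2)) = Φ.B.md x (Φ.X b (f j.1 j.2)) ^ 2 from rfl]
      simp only [card_univ, Fintype.card_fin, nsmul_eq_mul, Nat.cast_ofNat] at this
      rw [qq]
      linarith [show qq Φ.B Φ.X x 0 _ ≤ _ from le_lo h (x := x) (f := f) j.1 (Nat.le_succ_of_le e)]
    · rw [card_product, card_univ, nsmul_eq_mul, Nat.cast_mul]
      have := (mul_le_mul_of_nonneg_left (Nat.cast_le.2 (card_le_card
        (words_mono (Nat.le_succ m)))) (Nat.cast_nonneg (α := ℝ) (Fintype.card ι))).trans hn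
      linarith [mul_le_mul_of_nonneg_right this l0]

omit h in
/-- The family estimate for any weight. -/
theorem famA {k c : ℝ} (k1 : 1 ≤ k) (c0 : 0 < c) (c1 : c ≤ 1) (n Cf : ℝ) (n1 : 1 ≤ n) :
    ∃ K0 C : ℝ, 0 < K0 ∧ 0 < C ∧ ∀ (A : Type) [CommRing A] [Algebra ℂ A] (Φ : Fld A) (N M a : ℝ),
      Φ.Is → |a| ≤ k → |M| ≤ k → 4 * N + 2 ≤ k → ∀ κ ε, K0 ≤ κ → 10 ^ 6 * k ^ 12 * ε ≤ c ^ 4 →
      ∀ (Om Bd : A) (de : Fin 5 → Fin 5 → A), Φ.B.Wt Om → Φ.B.Wt Bd → (∀ a b, Φ.B.Re (de a b)) →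
      (∀ x, At (kw Φ M a) Φ.B k c κ ε Om Bd de x ∨ Off (kw Φ M a) Φ.B Om x) →
      ∀ (ι : Type) [Fintype ι] (s : ι → ℝ) (f : ι → List (Fin 5) → A) (m : ℕ) (δ : ℝ),
      Fintype.card ι * ((words (m + 1)).card : ℝ) ≤ n → 4 * n * δ ≤ 1 → (∀ i, |s i| ≤ N) →
      (∀ i J, Φ.P (s i) (s i) M a (f i J) = (kw Φ M a).Op (1 - s i) (2 * (1 - 2 * s i))
        (-(4 * s i)) (f i J) + rl A (s i ^ 2 - s i) * f i J) →
      (∀ x, Φ.B.val x Om ≠ 0 ∨ Φ.B.val x Bd ≠ 0 → Hn Φ M a δ Cf de s f m x) →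
      κ * Φ.B.J (Om * lo Φ f m) ≤ C * Φ.B.J (Bd * lo Φ f m) := by
  obtain ⟨γ, hγ⟩ : ∃ γ, γ = c ^ 2 / (1600 * k ^ 12) := ⟨_, rfl⟩
  have γ0 : 0 < γ := by rw [hγ]; positivity
  refine ⟨2 * (2 * 10 ^ 6 * k ^ 4 + n * (16 * n * |Cf| + 148 * k ^ 4)) / γ,
      8 * n / γ * (15000 * k ^ 2 * (21 * n)), by positivity, by positivity, ?_⟩
  intro A _ _ Φ N M a h ha hM hN κ ε hκ hε Om Bd de hO hB rd H ι _ s f m δ hn hδ hs hP F
  have K := kw_is h M a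
  have E := finF K k1 ha hM c0 c1 hε hO hB rd H (univ ×ˢ words m) (fun j => f j.1 j.2)
    (Cf := 16 * n * |Cf| + 148 * k ^ 4) (rho := 0) fun x o j e => by
      have P := F x (Or.inl o)
      have e : j.2.length ≤ m := by simpa [mem_words] using e
      have q := single_le_sum (f := fun j : ι × List (Fin 5) => qq Φ.B Φ.X x 1 (f j.1 j.2))
        (fun _ _ => qq_nonneg _ _) (s := univ ×ˢ words m) (a := j) (by simp [mem_words, e])
      obtain ⟨s1, s2⟩ := abs_le.1 (hs j.1)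
      have b1 := op_le K k1 ha hM ((H x).resolve_right fun e => o e.1).zone (al := 1 - s j.1)
        (be := 2 * (1 - 2 * s j.1)) (ga := -(4 * s j.1)) (abs_le.2 ⟨by linarith, by linarith⟩)
        (abs_le.2 ⟨by linarith, by linarith⟩) (abs_le.2 ⟨by linarith, by linarith⟩) (f j.1 j.2)
      have b2 : Φ.B.md x (rl A (s j.1 ^ 2 - s j.1) * f j.1 j.2) ^ 2 ≤
          k ^ 4 * qq Φ.B Φ.X x 1 (f j.1 j.2) := by
        rw [md_mul, mul_pow, h.B.md_rl, show k ^ 4 = (k ^ 2) ^ 2 by ring]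
        exact mul_le_mul (pow_le_pow_left₀ (abs_nonneg _) (abs_le.2 ⟨by nlinarith, by nlinarith⟩) 2)
          (md_le_qq 1 _) (sq_nonneg _) (by positivity)
      have b3 := (P.eqA j.1 j.2 e).trans ((mul_le_mul_of_nonneg_right (le_abs_self Cf)
        (by rw [val_lo h]; positivity)).trans
          (mul_le_mul_of_nonneg_left (cmp h hn n1 hδ P).1 (abs_nonneg _)))
      have b4 := sq2 (md_nonneg x _) (md_add x ((kw Φ M a).Op (1 - s j.1) (2 * (1 - 2 * s j.1))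
        (-(4 * s j.1)) (f j.1 j.2) - (kw Φ M a).W0 (f j.1 j.2)) (rl A (s j.1 ^ 2 - s j.1) * f j.1 j.2))
      have b5 := sq2 (md_nonneg x _) (md_sub x (Φ.P (s j.1) (s j.1) M a (f j.1 j.2) +
        Φ.Q de (f j.1 j.2)) ((kw Φ M a).Op (1 - s j.1) (2 * (1 - 2 * s j.1)) (-(4 * s j.1))
          (f j.1 j.2) - (kw Φ M a).W0 (f j.1 j.2) + rl A (s j.1 ^ 2 - s j.1) * f j.1 j.2))
      rw [show ∀ p, Φ.P (s j.1) (s j.1) M a (f j.1 j.2) + p - _ = (kw Φ M a).W0 (f j.1 j.2) + p from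
        fun p => by rw [hP]; ring] at b5
      rw [val_zero]
      have := mul_le_mul_of_nonneg_left q (show 0 ≤ k ^ 4 by positivity)
      exact b5.trans (by
        change _ ≤ _ * qq Φ.B Φ.X x 1 _ at b1
        change _ ≤ _ * ∑ j ∈ univ ×ˢ words m, qq Φ.B Φ.X x 1 (f j.1 j.2) + 0
        linarith [mul_nonneg (mul_nonneg (abs_nonneg Cf) (zero_le_one.trans n1))
          ((qq_nonneg 1 _).trans q)])
  have j : ∀ {w : A}, Φ.B.Wt w → ∀ {p q : ℝ}, (∀ x, Φ.B.val x w = 0 ∨ 0 ≤ p * Φ.B.val x (lo Φ f m) +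
      q * ∑ j ∈ univ ×ˢ words m, qq Φ.B Φ.X x 1 (f j.1 j.2)) → 0 ≤ p * Φ.B.J (w * lo Φ f m) +
      q * ∑ j ∈ univ ×ˢ words m, nj Φ.B Φ.X w 1 (f j.1 j.2) := fun {w} hw p q e => by
    simp only [nj]
    rw [← J_sum, ← J_rl, ← J_rl, ← J_add, ← J_zero (B := Φ.B)]
    refine h.B.J_le Φ.B.K.zero_mem (Φ.B.K.add_mem (Φ.B.K.mul_mem_left _ (Φ.B.K.mul_mem_right _ hw.K))
      (Φ.B.K.mul_mem_left _ (Φ.B.K.sum_mem fun _ _ => Φ.B.K.mul_mem_right _ hw.K))) fun x => ?_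
    rw [val_zero, val_add, h.B.val_mul (h.B.re_rl _), h.B.val_mul (h.B.re_rl _), h.B.val_rl,
      h.B.val_rl, val_sum, h.B.val_mul hw.re]
    simp only [val_nj h.B, ← mul_sum]
    rcases e x with e | e
    · simp [e]
    · linarith [mul_nonneg (hw.pos x) e]
  have j1 := j hO (p := -1) (q := 4 * n) fun x => or_iff_not_imp_left.2 fun o => by
    linarith [(cmp h hn n1 hδ (F x (Or.inl o))).1]
  have j2 := j hB (p := 21 * n) (q := -1) fun x => or_iff_not_imp_left.2 fun o => by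
    linarith [(cmp h hn n1 hδ (F x (Or.inr o))).2]
  have p1 : 0 ≤ ∑ j ∈ univ ×ˢ words m, nj Φ.B Φ.X Om 1 (f j.1 j.2) :=
    sum_nonneg fun _ _ => nj_nonneg h.B hO _ _
  have cd : ((univ ×ˢ words m : Finset (ι × List (Fin 5))).card : ℝ) ≤ n := by
    rw [card_product, card_univ, Nat.cast_mul]
    exact (mul_le_mul_of_nonneg_left (Nat.cast_le.2 (card_le_card (words_mono (Nat.le_succ m))))
      (Nat.cast_nonneg _)).trans hn
  rw [mul_zero, J_zero, mul_zero, add_zero, ← hγ] at E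
  change _ * ∑ j ∈ univ ×ˢ words m, nj Φ.B Φ.X _ 1 (f j.1 j.2) ≤
    _ * ∑ j ∈ univ ×ˢ words m, nj Φ.B Φ.X _ 1 (f j.1 j.2) at E
  have κ0 : 0 ≤ κ := le_trans (by positivity) hκ
  rw [div_le_iff₀ γ0] at hκ
  have u1 := mul_le_mul_of_nonneg_right (mul_le_mul_of_nonneg_right cd
    (show 0 ≤ 16 * n * |Cf| + 148 * k ^ 4 by positivity)) p1
  have u2 := mul_le_mul_of_nonneg_right hκ p1
  have u3 := mul_nonneg (show 0 ≤ 15000 * k ^ 2 by positivity) j2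
  have u4 := mul_nonneg (mul_nonneg κ0 γ0.le) j1
  rw [div_mul_eq_mul_div, div_mul_eq_mul_div, le_div_iff₀ γ0]
  generalize ∑ j ∈ univ ×ˢ words m, nj Φ.B Φ.X Om 1 (f j.1 j.2) = X at *
  generalize ∑ j ∈ univ ×ˢ words m, nj Φ.B Φ.X Bd 1 (f j.1 j.2) = Y at *
  have u5 : κ * γ * X ≤ 2 * (15000 * k ^ 2 * (21 * n) * Φ.B.J (Bd * lo Φ f m)) := by linarith
  linarith [mul_le_mul_of_nonneg_left u5 (zero_le_one.trans n1)]

omit h in
/-- The family estimate. -/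
theorem finL {k c : ℝ} (k1 : 1 ≤ k) (c0 : 0 < c) (c1 : c ≤ 1) : ∃ ε, 0 < ε ∧ ∀ n Cf : ℝ, 1 ≤ n →
    ∃ K0 C : ℝ, 0 < C ∧ ∀ (A : Type) [CommRing A] [Algebra ℂ A] (Φ : Fld A) (rm rI Rs Rb N M a : ℝ),
      Φ.Is → Up k rm Rb N M a Φ.f → Lo c rm rI Rs Rb M a Φ.f →
      ∀ S ψ G bd, Dec S rI Rs ψ G bd → IsClosed S → (∀ p, p ∉ S → ψ p = 0 ∧ bd p = 0) →
      ∀ κ, K0 ≤ κ → (∀ p ∈ S, κ * ψ p ≤ G p) →
      ∀ (ph : A) (de : Fin 5 → Fin 5 → A), Φ.B.Re ph → (∀ x, 0 ≤ Φ.B.val x ph) →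
      ph * Φ.fn ψ ∈ Φ.B.K → ph * Φ.fn bd ∈ Φ.B.K → (∀ a b, Φ.B.Re (de a b)) →
      ∀ (ι : Type) [Fintype ι] (s : ι → ℝ) (f : ι → List (Fin 5) → A) (m : ℕ) (δ : ℝ),
      Fintype.card ι * ((words (m + 1)).card : ℝ) ≤ n → 4 * n * δ ≤ 1 → (∀ i, |s i| ≤ N) →
      (∀ i J, Φ.P (s i) (s i) M a (f i J) = (kw Φ M a).Op (1 - s i) (2 * (1 - 2 * s i))
        (-(4 * s i)) (f i J) + rl A (s i ^ 2 - s i) * f i J) →
      (∀ x, Φ.pr x ∈ S → (Φ.B.val x ph = 0 ∧ gr Φ x ph = 0) ∨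
        Pt Φ M a rm Rb ε δ Cf ph de s f m x) →
      κ * Φ.B.J (ph * Φ.fn ψ * lo Φ f m) ≤ C * Φ.B.J (ph * Φ.fn bd * lo Φ f m) := by
  have d0 : 0 < c / (8 * k ^ 4) := by positivity
  have d1 : c / (8 * k ^ 4) ≤ 1 :=
    (div_le_self c0.le (by linarith [one_le_pow₀ (n := 4) k1])).trans c1
  refine ⟨(c / (8 * k ^ 4)) ^ 4 / (10 ^ 6 * k ^ 12), by positivity, fun n Cf n1 => ?_⟩
  obtain ⟨K0, C, -, C0, E⟩ := famA k1 d0 d1 n Cf n1
  refine ⟨K0 / c, C * (k + 1) / c, by positivity, ?_⟩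
  intro A _ _ Φ rm rI Rs Rb N M a h U L S ψ G bd D hS out κ hκ hG ph de rp p0 KO KB rd ι _ s f m δ
    hn hδ hs hP H
  have wt : ∀ {w : ℝ × ℝ → ℝ}, ContDiff ℝ ∞ w → ph * Φ.fn w ∈ Φ.B.K → (∀ p ∈ S, 0 ≤ w p) →
      (∀ p, p ∉ S → w p = 0) → Φ.B.Wt (ph * Φ.fn w) ∧ ∀ x, Φ.B.val x (ph * Φ.fn w) = 0 ∨
        Pt Φ M a rm Rb _ δ Cf ph de s f m x := fun {w} e1 e2 e3 e4 => by
    refine ⟨⟨e2, rp.mul (h.re w e1), fun x => ?_⟩, fun x => ?_⟩ <;>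
      rw [h.B.val_mul rp, val_fn h e1] <;> by_cases o : Φ.pr x ∈ S
    exacts [mul_nonneg (p0 x) (e3 _ o), by rw [e4 _ o, mul_zero],
      (H x o).imp_left fun e => by rw [e.1, zero_mul], Or.inl (by rw [e4 _ o, mul_zero])]
  obtain ⟨hO, zO⟩ := wt D.s1 KO D.pos fun p e => (out p e).1
  obtain ⟨hB, zB⟩ := wt D.s3 KB (fun p e => by
    obtain ⟨_, _, _, -, -, -, -, -, -, e, -⟩ := D.dec p e
    exact (abs_nonneg _).trans e) fun p e => (out p e).2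
  have := E A Φ N M a h U.ha U.hM U.hN (c * κ) _ ((div_le_iff₀' c0).1 hκ)
    (mul_div_cancel₀ _ (by positivity)).le _ _ de hO (h.B.wt_rl hB (show 0 ≤ k + 1 by linarith)) rd
    (fun x => by
      by_cases o : Φ.pr x ∈ S
      · refine (H x o).symm.imp (at_of h U L c1 D o (hG _ o) rp (p0 x)) fun e =>
          ⟨by rw [h.B.val_mul rp, e.1, zero_mul], fun b => (gr_mul h rp D.s1 b).trans (by
            rw [e.1, e.2, zero_mul, Pi.zero_apply, mul_zero, add_zero])⟩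
      · have := d_out hS (fun p e => (out p e).1) o
        refine Or.inr ⟨by rw [h.B.val_mul rp, val_fn h D.s1, (out _ o).1, mul_zero], fun b =>
          (gr_mul h rp D.s1 b).trans ?_⟩
        rw [this.1, this.2, (out _ o).1]
        fin_cases b <;> simp) ι s f m δ hn hδ hs hP fun x o => o.elim
      (fun o => ((zO x).resolve_left o).hn) fun o => ((zB x).resolve_left fun e => o (by
        rw [h.B.val_mul (h.B.re_rl _), e, mul_zero])).hn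
  rw [mul_assoc (rl A _), J_rl] at this
  rw [div_mul_eq_mul_div, le_div_iff₀ c0]
  linarith

end Vale.Agent.P354FN
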